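import Crest.Agent.X212.Cut21.Defs
import Crest.Agent.X212.Hp13.Swap

/-!
# X212 / Sup43 (helper43): the double curve sum without spheres, definitions and leaves

`A` is an UPPER set, `X` is a maximal surface with jumps at most one, `Y` is a surface, `X + Y` is
exact.  Only `Y` is moved.
-/

set_option autoImplicit false
set_option linter.unusedSectionVars false

open Finset Classical

noncomputable section

namespace Crest.Agent.X212.Sup43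

open Crest.Agent.X212.Hp13

section basic

variable {P : Type} [PartialOrder P]

/-- `bot ∘ bot` inside, `top ∘ top` on the boundary -/
def be (A : Set P) (C : Ch (Ch P)) : P :=
  if h : ∃ c ∈ C.1, c.top ∉ A then
    (C.sub (C.1.filter fun c => c.top ∉ A)
      (let ⟨c, h1, h2⟩ := h; ⟨c, mem_filter.2 ⟨h1, h2⟩⟩) (filter_subset _ _)).top.top
  else C.bot.bot

/-- `top ∘ top` -/
abbrev tt : Ch (Ch P) → P := Ch.top ∘ Ch.top

variable {A : Set P}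

theorem be_in {C : Ch (Ch P)} (h : ∀ c ∈ C.1, c.top ∈ A) : be A C = C.bot.bot :=
  dif_neg fun ⟨c, h1, h2⟩ => h2 (h c h1)

/-- `c` is the last member of `C` off `A` -/
theorem be_out {C : Ch (Ch P)} {c : Ch P} (h1 : c ∈ C.1) (h2 : c.top ∉ A)
    (h3 : ∀ d ∈ C.1, d.top ∉ A → d ≤ c) : be A C = c.top := by
  rw [be, dif_pos ⟨c, h1, h2⟩]
  congr 1
  exact Ch.top_eq (mem_filter.2 ⟨h1, h2⟩) fun d hd => h3 d (mem_filter.1 hd).1 (mem_filter.1 hd).2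

theorem be_cases (A : Set P) (C : Ch (Ch P)) :
    ((∀ c ∈ C.1, c.top ∈ A) ∧ be A C = C.bot.bot) ∨
      ∃ c ∈ C.1, c.top ∉ A ∧ (∀ d ∈ C.1, d.top ∉ A → d ≤ c) ∧ be A C = c.top := by
  by_cases h : ∃ c ∈ C.1, c.top ∉ A
  · let D := C.sub (C.1.filter fun c => c.top ∉ A)
      (let ⟨c, h1, h2⟩ := h; ⟨c, mem_filter.2 ⟨h1, h2⟩⟩) (filter_subset _ _)
    have m := mem_filter.1 D.top_mem
    have k : ∀ d ∈ C.1, d.top ∉ A → d ≤ D.top := fun d h1 h2 =>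
      Ch.le_top (c := D) (mem_filter.2 ⟨h1, h2⟩)
    exact Or.inr ⟨D.top, m.1, m.2, k, be_out m.1 m.2 k⟩
  · have k : ∀ c ∈ C.1, c.top ∈ A := fun c h1 => by_contra fun h2 => h ⟨c, h1, h2⟩
    exact Or.inl ⟨k, be_in k⟩

theorem be_mem (A : Set P) (C : Ch (Ch P)) : be A C ∈ C.top.1 := by
  rcases be_cases A C with ⟨-, e⟩ | ⟨c, h1, -, -, e⟩ <;> rw [e]
  exacts [C.bot_le_top C.bot.bot_mem, Ch.le_top h1 c.top_mem]

theorem be_le (A : Set P) (C : Ch (Ch P)) : be A C ≤ tt C := Ch.le_top (be_mem A C)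

theorem bb_le_be (A : Set P) (C : Ch (Ch P)) : C.bot.bot ≤ be A C := by
  rcases be_cases A C with ⟨-, e⟩ | ⟨c, h1, -, -, e⟩ <;> rw [e]
  exact Ch.le_top (Ch.bot_le h1 C.bot.bot_mem)

theorem be_off {C : Ch (Ch P)} (h : tt C ∉ A) : be A C = tt C :=
  be_out C.top_mem h fun _ hd _ => Ch.le_top hd

theorem be_mono (hA : IsUpperSet A) : Monotone (be A) := by
  intro C D h
  rcases be_cases A C with ⟨h1, e⟩ | ⟨c, h1, h2, -, e⟩ <;> rw [e]
  · rcases be_cases A D with ⟨-, e'⟩ | ⟨d, k1, k2, -, e'⟩ <;> rw [e']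
    · exact Ch.bot_anti (Ch.bot_anti h)
    · rcases D.total k1 (h C.bot_mem) with k | k
      · exact (Ch.bot_anti k).trans d.bot_le_top
      · exact absurd (hA (Ch.top_mono k) (h1 _ C.bot_mem)) k2
  · rcases be_cases A D with ⟨k, -⟩ | ⟨d, -, -, k3, e'⟩
    · exact absurd (k c (h h1)) h2
    · rw [e']; exact Ch.top_mono (k3 c (h h1) h2)

variable {X Y : P → P → ℤ}

/-- the level of `X + Y` of a cell of `X` (`Y` is read at the bottom); antitone -/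
def nu (ω : P → ℤ) (p : Lv A X) : ℤ := ω p.1.1.bot + p.1.2

/-- the level of `X + Y` of a cell of `Y` (`X` is read at the top); monotone -/
def th (X : P → P → ℤ) (ω : P → ℤ) (q : Lv A Y) : ℤ :=
  ω q.1.1.bot + X q.1.1.bot q.1.1.top + q.1.2

/-- `E` is a component of a level set of `f` in `R` whose faces lie in `R` -/
structure Pc (R : Set P) (f : P → ℤ) (E : Set P) : Prop where
  cmp : ∃ n, IsCmp {p | p ∈ R ∧ f p = n} E
  cl : ∀ p ∈ E, ∀ q, q ≤ p → q ∈ R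

/-- the crossing curves: `Y` jumps before `X` -/
def II (A : Set P) (X Y : P → P → ℤ) : Set (Lv A Y) :=
  {q | q ∈ LA A Y ∧ ∃ r, Lv.le r q ∧ 1 ≤ X r.1.1.top q.1.1.top}

/-- number of components -/
def ncmp (E : Set P) : ℕ := {C | IsCmp E C}.ncard

/-- the measure -/
def mu (A : Set P) (X Y : P → P → ℤ) (h : Coc A Y) : ℕ :=
  haveI : IsCoc A Y := ⟨h⟩; ncmp (II A X Y)

end basic

/-- the standing hypotheses -/
structure Pos (s : St) (X Y : s.P → s.P → ℤ) (ω : s.P → ℤ) : Prop where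
  good : Good s
  up : IsUpperSet s.A
  sx : Sf s.A X
  mx : Max s X
  jx : ∀ x y, Dp s.A x y → X x y ≤ 1
  sy : Sf s.A Y
  ex : EqD s.A (X + Y) (cb ω)

/-! ### leaves -/

/-- DEC: a closed component of the sum with positive `chiC` contains a positive closed piece -/
def DecStmt : Prop := ∀ (s : St) (X Y : s.P → s.P → ℤ) (ω : s.P → ℤ) [IsCoc s.A X] [IsCoc s.A Y]
  [IsCoc s.A (X + Y)], Pos s X Y ω → 0 < chiC (Cls s.A (X + Y)) →
    (∃ E, Pc (LA s.A X) (nu ω) E ∧ 0 < chiC E) ∨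
      ∃ E, (∃ n, IsCmp {p | p ∈ LA s.A Y ∧ th X ω p = n} E) ∧ 0 < chiC E

/-- EXT: a convex connected piece of a surface with positive `ee` is a lower or an upper set -/
def ExtStmt : Prop := ∀ (L : Type) [PartialOrder L] [Fintype L] (R E : Set L), Mf 2 R → E ⊆ R →
  E.OrdConnected → Conn E → 0 < ee E → IsLowerSet E ∨ IsUpperSet E

/-- B: both surfaces are thickened -/
def BStmt : Prop := ∀ (s : St) (X Y : s.P → s.P → ℤ) (ω : s.P → ℤ) (h : Pos s X Y ω)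
  (h' : Coc s.sd.sd.A (pb (be s.A) Y)),
    mu s.sd.sd.A (pb (be s.A) X) (pb (be s.A) Y) h' ≤ mu s.A X Y h.sy.coc

/-- C: general position -/
def CStmt : Prop := ∀ (s : St) (X Y : s.P → s.P → ℤ) (ω : s.P → ℤ) (h : Pos s X Y ω)
  (h' : Coc s.sd.sd.A (pb (be s.A) Y)),
    mu s.sd.sd.A (pb tt X) (pb (be s.A) Y) h' ≤ mu s.A X Y h.sy.coc

/-- M3: a disc of `X` above the curve (`eu E = chiC E = 1`) -/
def M3Stmt : Prop := ∀ (s : St) (X Y : s.P → s.P → ℤ) (ω : s.P → ℤ) [IsCoc s.A X] (ω' : _)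
  (E : Set (Lv s.A X)), Pos s X Y ω → Pc (LA s.A X) (nu ω) E → chiC E = 1 → IsLowerSet E →
  ¬ IsUpperSet E → ∀ h : Pos s.sd.sd (pb (be s.A) X) (pb (be s.A) Y) ω',
    ∃ Y', ∃ h' : Sf s.sd.sd.A Y', Eqv s.sd.sd.A (pb (be s.A) Y) Y' ∧
      chi s.sd.sd.A (pb (be s.A) Y) ≤ chi s.sd.sd.A Y' ∧
      mu s.sd.sd.A (pb (be s.A) X) Y' h'.coc < mu s.sd.sd.A (pb (be s.A) X) (pb (be s.A) Y) h.sy.coc

/-- M4: a disc of `X` below the curve -/
def M4Stmt : Prop := ∀ (s : St) (X Y : s.P → s.P → ℤ) (ω : s.P → ℤ) [IsCoc s.A X] (ω' : _)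
  (E : Set (Lv s.A X)), Pos s X Y ω → Pc (LA s.A X) (nu ω) E → chiC E = 1 → IsUpperSet E →
  ¬ IsLowerSet E →
  ∀ h : Pos s.sd.sd.sd.sd (pb tt (pb (be s.A) X)) (pb (be s.sd.sd.A) (pb (be s.A) Y)) ω',
    ∃ Y', ∃ h' : Sf s.sd.sd.sd.sd.A Y',
      Eqv s.sd.sd.sd.sd.A (pb (be s.sd.sd.A) (pb (be s.A) Y)) Y' ∧
      chi s.sd.sd.sd.sd.A (pb (be s.sd.sd.A) (pb (be s.A) Y)) ≤ chi s.sd.sd.sd.sd.A Y' ∧
      mu s.sd.sd.sd.sd.A (pb tt (pb (be s.A) X)) Y' h'.coc <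
        mu s.sd.sd.sd.sd.A (pb tt (pb (be s.A) X)) (pb (be s.sd.sd.A) (pb (be s.A) Y)) h.sy.coc

/-- INC, lower piece of `Y` -/
def IncLStmt : Prop := ∀ (s : St) (X Y : s.P → s.P → ℤ) (ω : s.P → ℤ) [IsCoc s.A X] [IsCoc s.A Y]
  (E : Set (Lv s.A Y)), Pos s X Y ω → Pc (LA s.A Y) (th X ω) E → chiC E = 1 → IsLowerSet E →
  ¬ IsUpperSet E → ∃ E', Pc (LA s.A X) (nu ω) E' ∧ 0 < chiC E'

/-- INC, upper piece of `Y` (its faces may lie on the boundary) -/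
def IncUStmt : Prop := ∀ (s : St) (X Y : s.P → s.P → ℤ) (ω : s.P → ℤ) [IsCoc s.A X] [IsCoc s.A Y]
  (E : Set (Lv s.A Y)), Pos s X Y ω → (∃ n, IsCmp {p | p ∈ LA s.A Y ∧ th X ω p = n} E) →
  chiC E = 1 → IsUpperSet E → ¬ IsLowerSet E → ∃ E', Pc (LA s.A X) (nu ω) E' ∧ 0 < chiC E'

/-- CORE -/
def CoreStmt : Prop := ∀ (s : St) (X Y : s.P → s.P → ℤ) (ω : s.P → ℤ), Pos s X Y ω →
  ∃ t f u, Desc s t f ∧ Sf t.A u ∧ Eqv t.A (pb f (X + Y)) u ∧ chi s.A X + chi s.A Y ≤ chi t.A u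

/-- normal form near `R₊` (helper21) -/
def NfStmt : Prop := ∀ (s : St) (z : s.P → s.P → ℤ), Good s → Cut21.Thick s.A → Sf s.A z →
  ∃ t f w, Desc s t f ∧ Sf t.A w ∧ Eqv t.A (pb f z) w ∧ chi t.A w = chi s.A z ∧ Cut21.VertP t.A w

/-- halving (helper21) -/
def HalfStmt : Prop := ∀ (s : St) (z : s.P → s.P → ℤ), Good s → Sf s.A z → Cut21.JO s.A z →
  ∃ t f w, Desc s t f ∧ Sf t.A w ∧ Eqv t.A (pb f z) w ∧ chi t.A w = chi s.A z ∧ Cut21.JK t.A w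

/-- BOUND -/
def BoundStmt : Prop := ∀ (s : St) (z : s.P → s.P → ℤ), Cut21.Stt s → Coc s.A z → Mono s.A z →
  Cut21.JK s.A z → ∃ C : ℤ, ∀ (k : ℕ) (t : St) (f : t.P → s.P) (T : t.P → t.P → ℤ), Desc s t f →
    Sf t.A T → Eqv t.A (pb f (z + (k : ℤ) • Rm s.A)) T → chi t.A T ≤ k * chi s.A (Rm s.A) + C

end Crest.Agent.X212.Sup43
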