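import Crest.Agent.X212.Sup43.Dec
import Crest.Agent.X212.Alg36.Sd3
import Crest.Agent.X212.Hp13.Mx

/-!
# X212 / Sup43 (helper43): the manifold without its frontier layer, the levels of an exact surface
-/

set_option autoImplicit false
set_option linter.unusedSectionVars false

open Finset Classical

noncomputable section

namespace Crest.Agent.X212.Sup43

open Crest.Agent.X212.Hp13 Crest.Agent.X212.Cut21

section inner

variable {P : Type} [PartialOrder P] {A : Set P}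

/-- the inner part -/
def Inn (A : Set P) : Set P := A \ Fr A

theorem inn_sub : Inn A ⊆ A := Set.sdiff_subset

theorem inn_up : IsUpperSet (Inn A) := fun _ y l hx =>
  have hy : y ∈ A := by_contra fun k => hx.2 ⟨hx.1, y, k, l⟩
  ⟨hy, fun k => hx.2 (fr_dn k hx.1 l)⟩

theorem dp_up (hA : IsUpperSet A) {x y : P} (h : Dp A x y) : ∃ a ∈ A, y ≤ a :=
  let ⟨_, a, ha, _, k⟩ := h
  k.elim (fun k => ⟨y, hA k ha, le_rfl⟩) fun k => ⟨a, ha, k⟩

theorem bnd_inn {G : Type} [AddCommGroup G] (h : Bnd G A) : Bnd G (Inn A) := fun z hz h0 => by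
  obtain ⟨g, g1, g2⟩ := h (fun x y => if y ∈ Inn A then z x y else 0)
    (fun a _ x y w h1 h2 _ _ _ => by
      by_cases hw : w ∈ Inn A
      · have e := (tri3 hw h1 h2).add hz
        by_cases hy : y ∈ Inn A
        · simp only [if_pos hw, if_pos hy, e]
        · simp only [if_pos hw, if_neg hy, e,
            h0 x y (dp_hi hw h1 h2) (fun k => hy (inn_up h1 k)) hy]
      · simp only [if_neg hw, if_neg fun k => hw (inn_up h2 k), add_zero])
    fun x y _ _ hy => if_neg fun k => hy k.1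
  refine ⟨g, fun x hx => ?_, fun x y hp => ?_⟩
  · by_cases k : x ∈ A
    · obtain ⟨-, o, o1, o2⟩ : x ∈ Fr A := by_contra fun j => hx ⟨k, j⟩
      have := g2 x o (Dp.of_left k o2)
      simp only [if_neg fun j : o ∈ Inn A => o1 j.1, Pi.add_apply, Pi.zero_apply, cb, g1 o o1] at this
      simpa using this
    · exact g1 x k
  · rw [← g2 x y (hp.mono inn_sub)]
    beta_reduce
    split_ifs with k
    exacts [rfl, h0 x y hp (fun j => k (inn_up hp.le j)) k]

theorem nc_sub {B : Set P} (hB : IsUpperSet B) (hs : B ⊆ A) {z : P → P → ℤ} (hz : Coc A z)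
    (hm : Mono A z) (h : NC A z) : NC B z := fun x y k hp h0 h1 => by
  refine h.ind hz hm (G := Tb B z) (fun x y k _ hx hy _ _ => Tb.base (fun j => hx (hs j))
    fun j => hy (hs j)) (fun x y w k t h0 h1 => ?_) (fun x y w k t h0 h1 => ?_) (hp.mono hs) h0 h1
  all_goals by_cases hw : w ∈ B
  · exact Tb.R (tri3 hw t.1 t.2.1) h0 h1
  · have hy := fun j => hw (hB t.2.1 j)
    have hx := fun j => hy (hB t.1 j)
    exact ⟨fun _ => Tb.base hx hw, fun _ => Tb.base hx hy⟩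
  · exact Tb.L (tri3 hw t.1 t.2.1) h0 h1 rfl
  · have hy := fun j => hw (hB t.2.1 j)
    have hx := fun j => hy (hB t.1 j)
    exact ⟨fun _ => Tb.base hx hw, fun _ => Tb.base hy hw⟩

theorem ind_lt (w : P → ℤ) (n : ℤ) (x : P) : ind {x | n < w x} x = if n < w x then 1 else 0 := by
  by_cases h : n < w x
  · rw [if_pos h, ind_of_mem (by exact h)]
  · rw [if_neg h, ind_of_not (by exact h)]

/-- the levels of an exact surface have no closed component -/
theorem nc_level {w : P → ℤ} (hm : Mono A (cb w)) (h : NC A (cb w)) (n : ℤ) :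
    NC A (cb (ind {x | n < w x})) := fun x y k hp h0 h1 => by
  have i : ∀ (n : ℤ) x y, cb (ind {x | n < w x}) x y =
      (if n < w y then 1 else 0) - if n < w x then 1 else 0 := fun _ _ _ => by
    simp only [cb, ind_lt]
  have key := fun x y k => h.ind (coc_cb w) hm (x := x) (y := y) (k := k)
    (G := fun x y k => Tb A (cb (ind {t | w x + k < w t})) x y 0)
    (fun x y k _ hx hy _ _ => Tb.base hx hy)
    (fun x y u k t h0 h1 => Tb.R t le_rfl (by
      rw [i]; simp only [cb] at h1; split_ifs <;> omega))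
    (fun x y u k t h0 h1 => by
      have := hm _ _ t.d12
      simp only [cb] at h1 this
      rw [show w x + (k + cb w x y) = w y + k by simp only [cb]; ring]
      exact Tb.L t le_rfl (by rw [i]; split_ifs <;> omega) (by rw [i]; split_ifs <;> omega))
  rw [i] at h1
  have : w x ≤ n ∧ n < w y ∧ k = 0 := by split_ifs at h1 <;> omega
  obtain ⟨a, b, rfl⟩ := this
  simpa using key x y (n - w x) hp (by omega) (by simp only [cb]; omega)

theorem mono_level {w : P → ℤ} (hm : Mono A (cb w)) (n : ℤ) : Mono A (cb (ind {x | n < w x})) :=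
  mono_ind fun x y hp hx => lt_of_lt_of_le hx (sub_nonneg.1 (hm x y hp))

theorem sum_level (w : P → ℤ) {N : ℤ} (h : ∀ x, |w x| ≤ N) :
    cb w = ∑ n ∈ Ico (-N) N, cb (ind {x | n < w x}) := by
  have k : ∀ x, ∑ n ∈ Ico (-N) N, ind {x | n < w x} x = w x + N := fun x => by
    have := abs_le.1 (h x)
    simp only [ind_lt, sum_boole]
    rw [show (Ico (-N) N).filter (· < w x) = Ico (-N) (w x) by
      ext n; simp only [mem_filter, mem_Ico]; omega, Int.card_Ico]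
    omega
  funext x y
  simp only [Finset.sum_apply, cb, sum_sub_distrib, k]
  ring

variable [Fintype P]

theorem nice_inn (hA : A.OrdConnected) (hN : Nice A) (hT : Thick A) : Nice (Inn A) := by
  rintro c ⟨b, hb, k⟩ hc
  have t : c.top ∉ Inn A := fun j => hc ⟨_, c.top_mem, j⟩
  have l : c.top ≤ b := (k _ c.top_mem).resolve_left fun j => t (inn_up j hb)
  have e : {a | a ∈ Inn A ∧ ∀ x ∈ c.1, Cm a x} = {a | a ∈ A ∧ c.top ≤ a ∧ a ∉ Fr A} :=
    Set.ext fun a => ⟨fun ⟨h1, h2⟩ => ⟨h1.1, (h2 _ c.top_mem).resolve_left fun j => t (inn_up j h1),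
      h1.2⟩, fun ⟨h1, h2, h3⟩ => ⟨⟨h1, h3⟩, fun x hx => Or.inr ((Ch.le_top hx).trans h2)⟩⟩
  rw [e]
  by_cases h : c.top ∈ A
  · exact hT.inn _ (by_contra fun j => t ⟨h, j⟩)
  have := hN (Ch.pt c.top) ⟨b, hb.1, fun x hx => Or.inr (mem_singleton.1 hx ▸ l)⟩ (by rwa [mt_pt])
  refine Iff.mpr (Kh11.WS.ctr_iff (f := id) ?_) this
  refine Kh11.WS.of_ge (fun a ha => ⟨ha.1, fun x hx => Or.inr (mem_singleton.1 hx ▸ ha.2.1)⟩)
    (fun _ _ _ _ l => l) fun a ha => ?_
  obtain ⟨a1, a2⟩ := ha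
  have a3 : c.top ≤ a := (a2 _ (by simp)).resolve_left fun j => h (hA.out a1 hb.1 ⟨j, l⟩)
  by_cases j : a ∈ Fr A
  · convert hT.inn a j using 1
    exact Set.ext fun x => ⟨fun i => ⟨i.1.1, i.2, i.1.2.2⟩, fun i => ⟨⟨i.1, a3.trans i.2.1, i.2.2⟩, i.2.1⟩⟩
  · exact Kh11.sctr_min (m := a) ⟨⟨a1, a3, j⟩, le_rfl⟩ fun _ i => i.2

theorem sf_inn {z : P → P → ℤ} (h : Sf A z) : Sf (Inn A) z :=
  sf_iff.2 ⟨h.mono.mono inn_sub, h.coc.mono inn_sub, nc_sub inn_up inn_sub h.coc h.mono h.nc⟩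

/-- a competitor of `R₋` inside is a competitor -/
theorem sf_out {g : P → ℤ} (hg : ∀ x, x ∉ Inn A → g x = 0) (h : Sf (Inn A) (Rm A + cb g)) :
    Sf A (Rm A + cb g) := by
  have off : ∀ x y, x ≤ y → y ∉ Inn A → (Rm A + cb g) x y = Rm A x y := fun x y l hy => by
    simp [cb, hg y hy, hg x fun k => hy (inn_up l k)]
  have base : ∀ x y k, x ≤ y → y ∉ Inn A → 0 ≤ k → k < (Rm A + cb g) x y →
      Tb A (Rm A + cb g) x y k := fun x y k l hy h0 h1 => by
    have hx : x ∉ A := fun j => by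
      rw [off x y l hy, Rm, cb, ind_of_mem (E := {x | ∃ a ∈ A, a ≤ x}) ⟨x, j, l⟩,
        ind_of_mem (E := {x | ∃ a ∈ A, a ≤ x}) ⟨x, j, le_rfl⟩] at h1
      omega
    by_cases j : y ∈ A
    · obtain ⟨-, o, o1, o2⟩ : y ∈ Fr A := by_contra fun i => hy ⟨j, i⟩
      exact Tb.dnR (tri2 j l o2) h0 h1 (Tb.base hx o1)
    · exact Tb.base hx j
  have tr : ∀ {x y w}, Tri (Inn A) x y w → Tri A x y w := fun ⟨h1, h2, a, ha, k⟩ =>
    ⟨h1, h2, a, ha.1, k⟩
  refine sf_iff.2 ⟨fun x y hp => ?_, coc_Rm.add (coc_cb g), fun x y k hp h0 h1 => ?_⟩ <;>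
    by_cases hy : y ∈ Inn A
  · exact h.mono x y (Dp.of_right hy hp.le)
  · rw [off x y hp.le hy]; exact mono_Rm x y hp
  · exact h.nc.ind h.coc h.mono (G := Tb A (Rm A + cb g)) (fun x y k hp _ hy => base x y k hp.le hy)
      (fun _ _ _ _ t h0 h1 => Tb.R (tr t) h0 h1) (fun _ _ _ _ t h0 h1 => Tb.L (tr t) h0 h1 rfl)
      (Dp.of_right hy hp.le) h0 h1
  · exact base x y k hp.le hy h0 h1

/-- the canonical values on the frontier -/
theorem exists_del (hA : A.OrdConnected) {z : P → P → ℤ} (hz : Coc A z) (hm : Mono A z) :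
    ∃ δ : P → ℤ, (∀ x, x ∉ A → δ x = 0) ∧ (∀ x, 0 ≤ δ x) ∧ (∀ a ∈ Fr A, (∃ o, o ∉ A ∧ a ≤ o ∧ δ a = z a o) ∧
      ∀ o, o ∉ A → a ≤ o → δ a ≤ z a o) ∧ Mono (Inn A) (z + cb δ) := by
  have : ∀ a, ∃ o, a ∈ Fr A → (o ∉ A ∧ a ≤ o) ∧ ∀ p, p ∉ A → a ≤ p → z a o ≤ z a p := fun a => by
    by_cases h : a ∈ Fr A
    · obtain ⟨o, o1, o2⟩ := Set.exists_min_image {o | o ∉ A ∧ a ≤ o} (z a) (Set.toFinite _) h.2
      exact ⟨o, fun _ => ⟨o1, fun p p1 p2 => o2 p ⟨p1, p2⟩⟩⟩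
    · exact ⟨a, fun k => absurd k h⟩
  choose o ho using this
  obtain ⟨M, hM⟩ := Finite.exists_le fun a => z a (o a)
  have nn : ∀ a ∈ Fr A, 0 ≤ z a (o a) := fun a h => hm _ _ (Dp.of_left h.1 (ho a h).1.2)
  refine ⟨fun x => if x ∈ Fr A then z x (o x) else if x ∈ A then |M| else 0,
    fun x h => by simp only [if_neg h, if_neg fun k : x ∈ Fr A => h k.1], fun x => ?_,
    fun a h => ⟨⟨o a, (ho a h).1.1, (ho a h).1.2, if_pos h⟩, fun p p1 p2 => ?_⟩, fun x y hp => ?_⟩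
  · beta_reduce
    split_ifs with h
    exacts [nn x h, abs_nonneg M, le_rfl]
  · simp only [if_pos h]
    exact (ho a h).2 p p1 p2
  · have := hm x y (hp.mono inn_sub)
    have := le_abs_self M
    have := abs_nonneg M
    have := hM x
    obtain ⟨b, hb, l⟩ := dp_up inn_up hp
    simp only [Pi.add_apply, cb]
    by_cases x1 : x ∈ Fr A <;> by_cases y1 : y ∈ Fr A <;> by_cases x2 : x ∈ A <;>
      by_cases y2 : y ∈ A <;> simp only [x1, x2, y1, y2, if_true, if_false] <;>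
      first | omega | exact absurd x1.1 x2 | exact absurd y1.1 y2 | skip
    · have := (ho x x1).2 _ (ho y y1).1.1 (hp.le.trans (ho y y1).1.2)
      rw [(tri1 x2 hp.le (ho y y1).1.2).add hz] at this
      omega
    · exact absurd (hA.out x2 hb.1 ⟨hp.le, l⟩) y2
    · exact absurd (fr_dn y1 x2 hp.le) x1
    · have := nn y y1
      omega
    · exact absurd ⟨x2, y, y2, hp.le⟩ x1

end inner

theorem good_inn {s : St} (h : Good s) (hT : Thick s.A) : Good (s.at (Inn s.A)) :=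
  ⟨inn_up.ordConnected, h.mf.mono inn_sub, nice_inn h.conv h.nice hT, bnd_inn h.bnd, bnd_inn h.bnd2⟩

theorem inn_desc {s t : St} {f : t.P → s.P} (h : Desc s t f) : Inn t.A = f ⁻¹' Inn s.A := by
  rw [Inn, Alg36.fr_desc h, h.A_eq]; rfl

theorem max_inn {s : St} (h : Taut s) : Max (s.at (Inn s.A)) (Rm s.A) := by
  rintro t f d w hw ⟨g, g1, g2⟩
  have d' : Desc s (t.at (f ⁻¹' s.A)) f := d.at s.A
  have e : t.A = Inn (f ⁻¹' s.A) := d.A_eq.trans (inn_desc d').symm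
  have r : EqD (f ⁻¹' s.A) (pb f (Rm s.A)) (Rm (f ⁻¹' s.A)) := d'.Rm h.conv
  have M : Mf 3 (f ⁻¹' s.A) := Alg36.Mf.desc h.mf d'
  have c1 : chi (f ⁻¹' s.A) (pb f (Rm s.A)) = chi s.A (Rm s.A) := d'.chi _
  have c2 := d.chi (Rm s.A)
  rw [e] at hw g1 g2 c2 ⊢
  have k : chi (f ⁻¹' s.A) (Rm (f ⁻¹' s.A) + cb g) ≤ chi s.A (Rm s.A) :=
    h.max (t.at (f ⁻¹' s.A)) f d' _ (sf_out g1 (Kh11.sf_congr hw
      (g2.trans ((r.mono inn_sub).add EqD.rfl)).symm))
      ((Eqv.of_eqD r).trans (eqv_add_cb fun x hx => g1 x fun j => hx (inn_sub j)))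
  rw [chi_add, ← chi_congr r, c1, chi_cb_sub M inn_sub g1] at k
  rw [chi_congr g2, chi_add, c2]
  omega

theorem desc_up {s t : St} {f : t.P → s.P} (h : Desc s t f) {a : t.P} {o : s.P} (l : f a ≤ o) :
    ∃ p, a ≤ p ∧ f p = o := by
  induction h with
  | refl => exact ⟨o, l, rfl⟩
  | step _ ih =>
    obtain ⟨p, h1, h2⟩ := ih l
    have k : ∀ x ∈ a.1, Cm p x := fun x hx => Or.inr ((Ch.le_top hx).trans h1)
    exact ⟨a.ins p k, a.le_ins p k, (congrArg _ (Alg36.top_ins' k h1)).trans h2⟩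

/-- an exact surface is bounded by its levels -/
theorem chi_levels {s t : St} {f : t.P → s.P} {ω : s.P → ℤ} {φ : ℤ → ℤ}
    (hφ : ∀ n u, Sf t.A u → Eqv t.A (pb f (cb (ind {x | n < ω x}))) u → chi t.A u ≤ φ n)
    {u : t.P → t.P → ℤ} (hu : Sf t.A u) (e : Eqv t.A (pb f (cb ω)) u) (N₀ : ℤ) :
    ∃ N, N₀ ≤ N ∧ chi t.A u ≤ ∑ n ∈ Ico (-N) N, φ n := by
  obtain ⟨g, g1, g2⟩ := e
  rw [pb_cb, ← cb_add] at g2
  have h := Kh11.sf_congr hu g2.symm
  obtain ⟨M, hM⟩ := Finite.exists_le fun x => |(ω ∘ f + g) x|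
  refine ⟨max N₀ M, le_max_left _ _, ?_⟩
  rw [chi_congr g2, sum_level _ fun x => (hM x).trans (le_max_right N₀ M), chi_sum]
  refine sum_le_sum fun n _ => hφ n _
    (sf_iff.2 ⟨mono_level h.mono n, coc_cb _, nc_level h.mono h.nc n⟩)
    ⟨ind {x | n < (ω ∘ f + g) x} - ind {x | n < ω x} ∘ f, fun x hx => ?_, fun x y _ => ?_⟩
  · simp [ind_lt, g1 x hx]
  · simp only [Pi.add_apply, pb, cb, Pi.sub_apply, Function.comp]
    ring

end Crest.Agent.X212.Sup43
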