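import Crest.Agent.X212.Sup43.Core
import Crest.Agent.X212.Sup43.In
import Crest.Agent.X212.Cut21.Cnd
import Crest.Agent.X212.Hlf24.Half

/-!
# X212 / Sup43 (helper43): BOUND from CORE
-/

set_option autoImplicit false
set_option linter.unusedSectionVars false

open Finset Classical

noncomputable section

namespace Crest.Agent.X212.Sup43

open Crest.Agent.X212.Hp13 Crest.Agent.X212.Cut21

/-- a maximal surface with jumps at most one in the class of the reversed surface -/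
theorem exists_X (hH : HalfStmt) {s : St} {z : s.P → s.P → ℤ} (hs : Good s) (hA : IsUpperSet s.A)
    (hz : Coc s.A z) (hm : Mono s.A z) (hj : ∀ x y, Dp s.A x y → z x y ≤ 1) :
    ∃ t f X, Desc s.sd t f ∧ Sf t.A X ∧ Eqv t.A (pb f (rev z)) X ∧ Max t X ∧
      ∀ x y, Dp t.A x y → X x y ≤ 1 := by
  have G := Alg36.Good.sd hs
  obtain ⟨t1, f1, w, d1, s1, e1, m1⟩ := maxStmt s.sd (rev z) G hz.rev hm.rev
  have G1 := Alg36.Good.desc G d1
  obtain ⟨t2, f2, X, d2, s2, e2, c2, j2⟩ := hH t1 w G1 s1 fun x y hy l => by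
    obtain ⟨y1, a, ha, y2⟩ := id hy
    have p := dp_hi ha l y2
    rw [← e1.off p (om_dn G1.conv hy l).1 y1]
    rw [d1.A_eq] at p
    have q := p.map d1.mono
    exact hj _ _ (q.dom_top.dp (Ch.bot_mem _) (q.le (Ch.bot_mem _)) (Ch.bot_anti q.le))
  refine ⟨t2, f1 ∘ f2, X, d1.trans d2, s2, (d2.eqv e1).trans e2,
    (m1.desc d2).of_eqv e2 (by rw [c2, d2.chi]), fun x y p => ?_⟩
  have d := ((Desc.sd s).trans d1).trans d2
  obtain ⟨a, ha, l⟩ := dp_up (d.A_eq ▸ hA.preimage d.mono) p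
  exact j2 x y ((_root_.em _).imp_right fun k => ⟨k, a, ha, l⟩) p.le

/-- in normal form the surface is canonical on the frontier -/
theorem nf_eqv {s t : St} {f : t.P → s.P} {z : s.P → s.P → ℤ} {δ : s.P → ℤ} {k : ℤ}
    {T : t.P → t.P → ℤ} (d : Desc s t f) (h0 : ∀ x, x ∉ s.A → δ x = 0)
    (hδ : ∀ a ∈ Fr s.A, (∃ o, o ∉ s.A ∧ a ≤ o ∧ δ a = z a o) ∧ ∀ o, o ∉ s.A → a ≤ o → δ a ≤ z a o)
    (hm : Mono t.A T) (e : Eqv t.A (pb f (z + k • Rm s.A)) T) (hv : VertP t.A T) :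
    ∃ g : t.P → ℤ, (∀ x, x ∉ Inn t.A → g x = 0) ∧
      EqD t.A T (pb f (z + cb δ + k • Rm s.A) + cb g) := by
  obtain ⟨g, g1, g2⟩ := e
  have mem : ∀ x, x ∈ t.A ↔ f x ∈ s.A := fun x => by rw [d.A_eq]; rfl
  refine ⟨g - δ ∘ f, fun x hx => ?_, fun x y p => ?_⟩
  · by_cases j : x ∈ t.A
    · have hx : x ∈ Fr t.A := by_contra fun i => hx ⟨j, i⟩
      have val : ∀ o, o ∉ t.A → x ≤ o → T x o = z (f x) (f o) - g x := fun o o1 o2 => by
        rw [g2 x o (Dp.of_left j o2)]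
        simp [pb, cb, Rm, g1 o o1, ind_of_mem (E := {x | ∃ a ∈ s.A, a ≤ x}) ⟨_, (mem x).1 j, le_rfl⟩,
          ind_of_mem (E := {x | ∃ a ∈ s.A, a ≤ x}) ⟨_, (mem x).1 j, d.mono o2⟩]
        ring
      obtain ⟨⟨o, o1, o2, o3⟩, h2⟩ := hδ (f x) (by rw [Alg36.fr_desc d] at hx; exact hx)
      obtain ⟨p, p1, rfl⟩ := desc_up d o2
      obtain ⟨q, q1, q2, q3⟩ := hv x hx
      have := hm _ _ (Dp.of_left j p1)
      have := val p (mt (mem p).1 o1) p1
      have := val q q1 q2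
      have := h2 _ (mt (mem q).2 q1) (d.mono q2)
      simp only [Pi.sub_apply, Function.comp]
      omega
    · simp [g1 x j, h0 _ (mt (mem x).2 j)]
  · rw [g2 x y p]
    simp only [pb, cb, Pi.add_apply, Pi.sub_apply, Function.comp]
    ring

/-- the levels of the exact surface -/
theorem exact_bound {s : St} (hs : Stt s) {ρ : Ch s.P → ℤ} (m : ℕ)
    (h0 : ∀ c, Dom (Inn s.A) c → 0 ≤ ρ c) (h1 : ∀ c, ρ c ≤ m) : ∃ D : ℤ, ∀ k : ℕ,
      Mono (Ch.top ⁻¹' Inn s.A) (cb ρ + (k : ℤ) • pb Ch.top (Rm s.A)) →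
      ∀ t f u, Desc (s.at (Inn s.A)).sd t f → Sf t.A u →
        Eqv t.A (pb f (cb ρ + (k : ℤ) • pb Ch.top (Rm s.A))) u →
          chi t.A u ≤ k * chi (Inn s.A) (Rm s.A) + D := by
  let r := (s.at (Inn s.A)).sd
  have G : Good r := Alg36.Good.sd (good_inn hs.toGood hs.thick)
  set R := chi (Inn s.A) (Rm s.A) with hR
  let C : ℤ := ∑ U : Set r.P, (Fintype.card (Lv r.A (cb (ind U))) : ℤ)
  refine ⟨2 * m * (C + |R|), fun k hm t f u d hu e => ?_⟩
  let ω : Ch s.P → ℤ := fun c => ρ c + k * ind {x | ∃ a ∈ s.A, a ≤ x} c.top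
  have hω : cb ρ + (k : ℤ) • pb Ch.top (Rm s.A) = cb ω := by
    funext x y
    simp only [ω, cb, pb, Rm, Pi.add_apply, Pi.smul_apply, smul_eq_mul]
    ring
  rw [hω] at hm e
  have cls : ∀ (n : ℤ) (g : r.P → ℤ), (∀ c, Dom (Inn s.A) c → ind {x | n < ω x} c = g c) →
      EqD r.A (cb g) (cb (ind {x | n < ω x})) := fun n g h x y p =>
    congrArg₂ (· - ·) (h y p.dom_top).symm (h x (p.dom_top.mono p.le)).symm
  have val : ∀ c, ω c = ρ c ∧ ind {x | ∃ a ∈ s.A, a ≤ x} c.top = 0 ∨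
      ω c = ρ c + k ∧ ind {x | ∃ a ∈ s.A, a ≤ x} c.top = 1 := fun c => by
    simp only [ω, ind]
    split_ifs <;> simp
  obtain ⟨N, hN, le⟩ := chi_levels (s := r) (φ := fun n => (if n ∈ Ico (0 : ℤ) k then R else 0) +
    (if n ∈ Ico (0 : ℤ) m then C + |R| else 0) + if n ∈ Ico (k : ℤ) (k + m) then C + |R| else 0)
    (fun n w hw ew => by
      have hC : chi t.A w ≤ C := (chi_bdd G.mf (coc_cb _) (mono_level hm n) d hw ew).trans
        (single_le_sum (f := fun U : Set r.P => (Fintype.card (Lv r.A (cb (ind U))) : ℤ))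
          (fun _ _ => Int.natCast_nonneg _) (mem_univ _))
      have C0 : 0 ≤ C := sum_nonneg fun _ _ => Int.natCast_nonneg _
      have := neg_abs_le R
      have := abs_nonneg R
      have zero : ∀ i : ℤ, (∀ c, Dom (Inn s.A) c → ind {x | n < ω x} c = i) → chi t.A w ≤ 0 :=
        fun i h => by
          have : IsEmpty (Lv r.A 0) := ⟨fun p => absurd p.2.2.1 (not_le.2 p.2.2.2)⟩
          have := chi_bdd G.mf coc_zero mono_zero d hw ((Eqv.of_eqD (d.eqD
            ((show EqD r.A 0 (cb fun _ => i) from fun _ _ _ => by simp [cb]).trans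
              (cls n _ h)))).trans ew)
          simpa using this
      simp only [mem_Ico]
      by_cases a : n < 0
      · have := zero 1 fun c hc => by
          have := h0 c hc
          rw [ind_lt, if_pos (by rcases val c with h | h <;> omega)]
        split_ifs <;> omega
      by_cases b : (k : ℤ) + m ≤ n
      · have := zero 0 fun c _ => by
          have := h1 c
          rw [ind_lt, if_neg (by rcases val c with h | h <;> omega)]
        split_ifs <;> omega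
      by_cases c : (m : ℤ) ≤ n ∧ n < k
      · have : chi t.A w ≤ R := max_inn hs.toTaut t (Ch.top ∘ f) ((Desc.sd _).trans d) w hw
          ((Eqv.of_eqD (d.eqD (cls n (ind {x | ∃ a ∈ s.A, a ≤ x} ∘ Ch.top) fun x hx => by
            have := h0 x hx
            have := h1 x
            rcases val x with h | h
            · exact (ind_lt ω n x).trans ((if_neg (by omega)).trans h.2.symm)
            · exact (ind_lt ω n x).trans ((if_pos (by omega)).trans h.2.symm)))).trans ew)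
        split_ifs <;> omega
      · split_ifs <;> omega) hu e (k + m)
  have sm : ∀ (a b c : ℤ), 0 ≤ a → a ≤ b → b ≤ N →
      ∑ n ∈ Ico (-N) N, (if n ∈ Ico a b then c else 0) = (b - a) * c := fun a b c i j l => by
    rw [sum_ite_mem, inter_eq_right.2 (Ico_subset_Ico (by omega) l), sum_const, Int.card_Ico,
      nsmul_eq_mul, Int.toNat_of_nonneg (by omega)]
  rw [sum_add_distrib, sum_add_distrib, sm _ _ _ le_rfl (by omega) (by omega),
    sm _ _ _ le_rfl (by omega) (by omega), sm _ _ _ (by omega) (by omega) hN] at le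
  linarith

theorem boundStmt_of (hH : HalfStmt) : BoundStmt := by
  intro s z hs hz hm hj
  let s0 := s.at (Inn s.A)
  have G0 : Good s0 := good_inn hs.toGood hs.thick
  obtain ⟨δ, δ0, δ1, δ2, δ3⟩ := exists_del hs.conv hz hm
  obtain ⟨t2, f2, X, d2, sX, eX, mX, jX⟩ := exists_X hH G0 inn_up (hz.mono inn_sub)
    (hm.mono inn_sub) fun x y p => by
      obtain ⟨a, ha, l⟩ := dp_up inn_up p
      exact hj x y ((_root_.em _).imp_right fun k => ⟨k, a, ha.1, l⟩) p.le
  obtain ⟨m, hm'⟩ := Finite.exists_le fun c : Ch s.P => (rg z c + δ c.top).toNat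
  obtain ⟨D, hD⟩ := exact_bound hs (ρ := fun c => rg z c + δ c.top) m
    (fun c hc => add_nonneg (hm _ _ (hc.bt.mono inn_sub)) (δ1 _)) fun c => Int.toNat_le.1 (hm' c)
  refine ⟨chi s.A (z + cb δ) - chi (Inn s.A) (z + cb δ) + D - chi t2.A X,
    fun k t f T d hT e => ?_⟩
  obtain ⟨t', f', T', d', sT, eT, cT, vT⟩ := nfStmt t T (Alg36.Good.desc hs.toGood d)
    (Alg36.thick_desc hs.thick d) hT
  have dF := d.trans d'
  obtain ⟨g, g1, g2⟩ := nf_eqv dF δ0 δ2 sT.mono ((d'.eqv e).trans eT) vT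
  set W := z + cb δ + (k : ℤ) • Rm s.A with hW
  have d0 : Desc s0 (t'.at (Inn t'.A)) (f ∘ f') := inn_desc dF ▸ dF.at (Inn s.A)
  have c0 : chi (Inn t'.A) (pb (f ∘ f') W) = chi (Inn s.A) W := d0.chi W
  have c1 : chi t'.A T' = chi s.A W - chi (Inn s.A) W + chi (Inn t'.A) T' := by
    rw [chi_congr g2, chi_congr (g2.mono inn_sub), chi_add (z := pb _ W), chi_add (z := pb _ W),
      dF.chi, c0, chi_cb_sub (Alg36.Mf.desc hs.mf dF) inn_sub g1]
    ring
  obtain ⟨u, gX, gT, dX, dT, com⟩ := ((Desc.sd s0).trans d2).common d0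
  have ex : EqD (Ch.top ⁻¹' Inn s.A) (cb (fun c => rg z c + δ c.top) + (k : ℤ) • pb Ch.top (Rm s.A))
      (rev z + pb Ch.top W) := fun x y p => by
    rw [Pi.add_apply (rev z), Pi.add_apply (rev z x), rev_eq (hz.mono inn_sub) p.dom_top p.le]
    simp only [hW, pb, cb, Pi.add_apply, Pi.neg_apply, Pi.smul_apply]
    ring
  have eU : Eqv u.A (pb (f2 ∘ gX) (cb (fun c => rg z c + δ c.top) + (k : ℤ) • pb Ch.top (Rm s.A)))
      (pb gX X + pb gT T') := by
    refine (Eqv.of_eqD ((d2.trans dX).eqD ex)).trans ((dX.eqv eX).add ?_)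
    have : pb (f2 ∘ gX) (pb Ch.top W) = pb gT (pb (f ∘ f') W) := congrArg (pb · W) com
    exact (Eqv.of_eqD fun x y _ => congrFun (congrFun this x) y).trans
      (dT.eqv ⟨g, g1, g2.mono inn_sub⟩)
  have dU := d0.trans dT
  obtain ⟨ω, hω⟩ : ∃ ω, EqD u.A (pb gX X + pb gT T') (cb ω) := by
    obtain ⟨j, -, j2⟩ := eU
    refine ⟨(fun c => rg z c + δ c.top + k * ind {x | ∃ a ∈ s.A, a ≤ x} c.top) ∘ (f2 ∘ gX) + j,
      j2.trans fun x y _ => ?_⟩
    simp only [pb, cb, Rm, Pi.add_apply, Pi.smul_apply, smul_eq_mul, Function.comp]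
    ring
  obtain ⟨v, h, U, dv, sU, e1, c2⟩ := coreStmt u _ _ ω ⟨Alg36.Good.desc G0 dU,
    dU.A_eq ▸ inn_up.preimage dU.mono, dX.sf sX, mX.desc dX,
    fun x y p => jX _ _ (Dp.map dX.mono (dX.A_eq ▸ p)), dT.sf (sf_inn sT), hω⟩
  have := hD k (((hm.mono inn_sub).rev.add ((δ3.add ((mono_Rm.mono inn_sub).smul
    (Int.natCast_nonneg k))).pb Ch.top_mono)).congr ex) v _ U ((d2.trans dX).trans dv) sU
    ((dv.eqv eU).trans e1)
  have c3 : chi u.A (pb gT T') = chi (Inn t'.A) T' := dT.chi T'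
  rw [dX.chi, c3] at c2
  rw [hW, chi_add, chi_add (z := z + cb δ), chi_smul, chi_smul] at c1
  linarith

/-- **BOUND** -/
theorem boundStmt : BoundStmt := boundStmt_of (halfStmt_of Hlf24.half2Stmt)

end Crest.Agent.X212.Sup43
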