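import Crest.Agent.X212.Sup43.Mu

/-!
# X212 / Sup43 (helper43): the refinements B and C do not increase the number of crossing curves
-/

set_option autoImplicit false
set_option linter.unusedSectionVars false

open Finset Classical

noncomputable section

namespace Crest.Agent.X212.Sup43

open Crest.Agent.X212.Hp13

section key

variable {P : Type} [PartialOrder P] {A : Set P}

/-- the value of `be` on a single chain -/
def bv (A : Set P) (d : Ch P) : P := if d.top ∈ A then d.bot else d.top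

theorem bv_in {d : Ch P} (h : d.top ∈ A) : bv A d = d.bot := if_pos h
theorem bv_off {d : Ch P} (h : d.top ∉ A) : bv A d = d.top := if_neg h
theorem bv_mem (d : Ch P) : bv A d ∈ d.1 := by
  unfold bv; split_ifs; exacts [d.bot_mem, d.top_mem]
theorem bv_pt (x : P) : bv A (Ch.pt x) = x := mem_singleton.1 (bv_mem (Ch.pt x))

/-- `e` does not change the value given by `d` -/
def Key (A : Set P) (d e : Ch P) : Prop := (e.top ∈ A ∧ d ≤ e) ∨ (d.top ∉ A ∧ e ≤ d)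

theorem Key.rfl {d : Ch P} : Key A d d :=
  (_root_.em (d.top ∈ A)).imp (fun h => ⟨h, le_rfl⟩) fun h => ⟨h, le_rfl⟩

theorem be_key {C : Ch (Ch P)} {d : Ch P} (hd : d ∈ C.1) (h : ∀ e ∈ C.1, Key A d e) :
    be A C = bv A d := by
  by_cases k : d.top ∈ A
  · have j := fun e he => (h e he).resolve_right fun t => t.1 k
    rw [be_in fun e he => (j e he).1, bv_in k, Ch.bot_eq hd fun e he => (j e he).2]
  · rw [bv_off k]
    exact be_out hd k fun e he hn => ((h e he).resolve_left fun t => hn t.1).2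

theorem exists_key (A : Set P) (C : Ch (Ch P)) :
    ∃ d ∈ C.1, (∀ e ∈ C.1, Key A d e) ∧ be A C = bv A d := by
  suffices ∃ d ∈ C.1, ∀ e ∈ C.1, Key A d e from let ⟨d, h1, h2⟩ := this; ⟨d, h1, h2, be_key h1 h2⟩
  rcases be_cases A C with ⟨k, -⟩ | ⟨c, h1, h2, h3, -⟩
  · exact ⟨_, C.bot_mem, fun e he => Or.inl ⟨k e he, Ch.bot_le he⟩⟩
  · refine ⟨c, h1, fun e he => ?_⟩
    rcases C.total he h1 with l | l
    · exact Or.inr ⟨h2, l⟩
    · exact (_root_.em (e.top ∈ A)).imp (fun t => ⟨t, l⟩) fun t => ⟨h2, h3 e he t⟩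

theorem be_pt (d : Ch P) : be A (Ch.pt d) = bv A d :=
  be_key (by simp) (by simpa using Key.rfl)

theorem be_pr1 {d e : Ch P} (h : d ≤ e) (k : Key A d e) : be A (Ch.pr d e h) = bv A d :=
  be_key (by simp) (by simpa using ⟨Key.rfl, k⟩)

theorem be_pr2 {d e : Ch P} (h : d ≤ e) (k : Key A e d) : be A (Ch.pr d e h) = bv A e :=
  be_key (by simp) (by simpa using ⟨k, Key.rfl⟩)

/-- cone with vertex `c` -/
def cap (c : P) (D : Ch P) : Ch P :=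
  Ch.mk' (insert c (D.1.filter (· ≤ c))) (insert_nonempty _ _) fun x hx y hy => by
    rcases mem_insert.1 hx with rfl | hx <;> rcases mem_insert.1 hy with rfl | hy
    exacts [Cm.rfl, Or.inr (mem_filter.1 hy).2, Or.inl (mem_filter.1 hx).2,
      D.cm (mem_filter.1 hx).1 (mem_filter.1 hy).1]

theorem mem_cap {c x : P} {D : Ch P} : x ∈ (cap c D).1 ↔ x = c ∨ x ∈ D.1 ∧ x ≤ c := by
  simp [cap, Ch.mk']

theorem top_cap (c : P) (D : Ch P) : (cap c D).top = c :=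
  Ch.top_eq (mem_cap.2 (Or.inl rfl)) fun _ hx => (mem_cap.1 hx).elim Eq.le And.right

theorem cap_mono {c : P} {D E : Ch P} (h : D ≤ E) : cap c D ≤ cap c E := fun _ hx =>
  mem_cap.2 ((mem_cap.1 hx).imp_right fun k => ⟨h k.1, k.2⟩)

theorem le_cap {c : P} {D : Ch P} (h : D.top ≤ c) : D ≤ cap c D := fun _ hx =>
  mem_cap.2 (Or.inr ⟨hx, (Ch.le_top hx).trans h⟩)

theorem pt_le_cap {c : P} {D : Ch P} : Ch.pt c ≤ cap c D := Ch.pt_le.2 (mem_cap.2 (Or.inl rfl))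

theorem be_cap {c : Ch P} {D : Ch (Ch P)} (h : D.top ≤ c) (hc : c.top ∈ A) :
    be A (cap c D) = be A D := by
  obtain ⟨d, h1, h2, e⟩ := exists_key A D
  rw [e]
  refine be_key (le_cap h h1) fun x hx => ?_
  rcases mem_cap.1 hx with rfl | k
  exacts [Or.inl ⟨hc, (Ch.le_top h1).trans h⟩, h2 x k.1]

theorem le_of {c d : Ch P} (h : ∀ x ∈ c.1, x ∈ d.1) : c ≤ d := h

theorem le2 {Q R : Type} [PartialOrder Q] [PartialOrder R] {p q : Q × R} (h1 : p.1 ≤ q.1)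
    (h2 : p.2 ≤ q.2) : p ≤ q := ⟨h1, h2⟩

theorem conn_of {E : Set P} {n : P} (hn : n ∈ E) (h : ∀ x ∈ E, Rch E x n) : E.Nonempty ∧ Conn E :=
  ⟨⟨n, hn⟩, fun x hx y hy => (h x hx).trans (h y hy).symm⟩

theorem rch_up {E : Set P} {x y m : P} (hx : x ∈ E) (hy : y ∈ E) (hm : m ∈ E) (h1 : x ≤ m)
    (h2 : y ≤ m) : Rch E x y := (Rch.of_cm hx hm (Or.inl h1)).trans (Rch.of_cm hm hy (Or.inr h2))

/-- from a chain to the top point, inside a condition on `bv` -/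
theorem to_top {Q : Type} [PartialOrder Q] {E : Set Q} {g : Ch P} (hg : g.top ∈ A) {U : Set P}
    (hU : g.top ∈ U) (F : ∀ d, d ≤ g → Q)
    (hF : ∀ d e (h1 : d ≤ e) (h2 : e ≤ g), bv A d ∈ U → bv A e ∈ U → Rch E (F d (h1.trans h2)) (F e h2))
    {d : Ch P} (hd : d ≤ g) (h : bv A d ∈ U) : Rch E (F d hd) (F _ (Ch.pt_le.2 g.top_mem)) := by
  have m := hd (bv_mem (A := A) d)
  have l := Ch.le_top m
  have e : bv A (Ch.pr _ _ l) ∈ U := by rw [bv_in (by simpa), Ch.bot_pr]; exact h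
  exact (hF _ d (Ch.pt_le.2 (bv_mem d)) hd (by rwa [bv_pt]) h).symm.trans <|
    (hF _ _ (Ch.pt_le.2 (by simp)) (pr_le m g.top_mem) (by rwa [bv_pt]) e).trans
      (hF _ _ (Ch.pt_le.2 (by simp)) (pr_le m g.top_mem) (by rwa [bv_pt]) e).symm

theorem pair_conn (hA : IsUpperSet A) {W : Set P} (hW : IsUpperSet W) {c : Ch P} (h0 : c.bot ∉ W)
    (h1 : c.top ∈ W) :
    let S : Set (Ch (Ch P) × Ch (Ch P)) :=
      {τ | τ.1 ≤ τ.2 ∧ τ.2.top ≤ c ∧ be A τ.1 ∉ W ∧ be A τ.2 ∈ W}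
    S.Nonempty ∧ Conn S := by
  intro S
  by_cases hc : c.top ∈ A
  · have m : ∀ d (h : d ≤ c), bv A d ∈ W → (Ch.pt c, Ch.pr d c h) ∈ S := fun d h k =>
      ⟨Ch.pt_le.2 (by simp), by simp, by rwa [be_pt, bv_in hc], by rwa [be_pr1 h (Or.inl ⟨hc, h⟩)]⟩
    refine conn_of (m _ (Ch.pt_le.2 c.top_mem) (by rwa [bv_pt])) fun ⟨a, b⟩ h => ?_
    obtain ⟨k1, k2, k3, k4⟩ := id h
    obtain ⟨d, d1, -, e⟩ := exists_key A b
    have l := (Ch.le_top d1).trans k2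
    have la := (Ch.top_mono k1).trans k2
    refine (rch_up (m := (cap c a, cap c b)) h (m d l (e ▸ k4))
      ⟨cap_mono k1, (top_cap _ _).le, by rwa [be_cap la hc], by rwa [be_cap k2 hc]⟩
      (le2 (le_cap la) (le_cap k2))
      (le2 pt_le_cap (pr_le (h := l) (le_cap k2 d1) (mem_cap.2 (Or.inl rfl))))).trans
      (to_top hc h1 (fun d h => (Ch.pt c, Ch.pr d c h)) (fun d e j1 j2 j3 j4 => ?_) l (e ▸ k4))
    have i : Ch.pr e c j2 ≤ c3 d e c j1 j2 := le_of (by simp)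
    exact rch_up (m := (Ch.pt c, c3 d e c j1 j2)) (m _ (j1.trans j2) j3) (m _ j2 j4) ⟨Ch.pt_le.2 (by simp),
      (top_c3 j1 j2).le, (m _ j2 j4).2.2.1, hW (be_mono hA i) (m _ j2 j4).2.2.2⟩
      (le2 le_rfl (le_of (by simp))) (le2 le_rfl i)
  · have o : ∀ D : Ch (Ch P), D.top ≤ c → be A D = D.top.top := fun D h =>
      be_off fun k => hc (hA (Ch.top_mono h) k)
    have m : ∀ d (h : d ≤ c), d.top ∉ W → (Ch.pt d, Ch.pr d c h) ∈ S := fun d h k =>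
      ⟨Ch.pt_le.2 (by simp), by simp, by rwa [o _ (by simpa), Ch.top_pt],
        by rwa [o _ (by simp), Ch.top_pr]⟩
    have z : ∀ d e (j1 : d ≤ e) (j2 : e ≤ c), e.top ∉ W →
        Rch S (Ch.pt d, Ch.pr d c (j1.trans j2)) (Ch.pt e, Ch.pr e c j2) := fun d e j1 j2 j3 =>
      rch_up (m := (Ch.pr d e j1, c3 d e c j1 j2))
        (m _ (j1.trans j2) fun k => j3 (hW (Ch.top_mono j1) k))
        (m _ j2 j3) ⟨le_of (by simp), (top_c3 j1 j2).le, by rwa [o _ (by simpa), Ch.top_pr],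
          by rwa [o _ (top_c3 j1 j2).le, top_c3]⟩ (le2 (le_of (by simp)) (le_of (by simp)))
        (le2 (le_of (by simp)) (le_of (by simp)))
    refine conn_of (m _ (Ch.pt_le.2 c.bot_mem) (by simpa)) fun ⟨a, b⟩ h => ?_
    obtain ⟨k1, k2, k3, k4⟩ := id h
    have la : a.top ≤ c := (Ch.top_mono k1).trans k2
    have k5 : a.top.top ∉ W := o a la ▸ k3
    let e := a.top.ins c.bot fun x hx => Or.inl (Ch.bot_le (la hx))
    have e1 : e ≤ c := insert_subset c.bot_mem la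
    have e2 : e.top ∉ W := by
      rcases mem_insert.1 e.top_mem with j | j
      · rwa [j]
      · exact fun t => k5 (hW (Ch.le_top j) t)
    exact (rch_up (m := (a, cap c b)) h (m _ la k5) ⟨k1.trans (le_cap k2),
      (top_cap _ _).le, k3, hW (be_mono hA (le_cap k2)) k4⟩ (le2 le_rfl (le_cap k2)) (le2 (Ch.pt_le.2 a.top_mem)
        (pr_le (h := la) (le_cap k2 (k1 a.top_mem)) (mem_cap.2 (Or.inl rfl))))).trans
      ((z _ e (Ch.le_ins _ _ _) e1 e2).trans (z _ e (Ch.pt_le.2 (mem_insert_self _ _)) e1 e2).symm)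

theorem fibC_tt (hA : IsUpperSet A) : FibC A tt := by
  intro c W V hW hV hc h0 h1 ⟨x, x1, x2, x3⟩
  let v := c.sub (c.1.filter (· ∈ V)) ⟨x, mem_filter.2 ⟨x1, x3⟩⟩ (filter_subset _ _)
  have v1 : v ≤ c := filter_subset _ _
  obtain ⟨⟨n, hn⟩, k⟩ := pair_conn hA hW (c := v) (fun t => h0 (hW (Ch.bot_le
    (c := v) (mem_filter.2 ⟨c.bot_mem, hV (Ch.bot_le x1) x3⟩)) t))
    (hW (Ch.le_top (c := v) (mem_filter.2 ⟨x1, x3⟩)) x2)
  have t : ∀ b, tt (cap c b) = c.top := fun b => congrArg Ch.top (top_cap c b)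
  have m : ∀ τ : Ch (Ch P) × Ch (Ch P), τ.1 ≤ τ.2 ∧ τ.2.top ≤ v ∧ be A τ.1 ∉ W ∧ be A τ.2 ∈ W →
      (τ.1, τ.2, cap c τ.2) ∈ Sg A tt c W V := fun τ ⟨k1, k2, k3, k4⟩ =>
    ⟨k1, le_cap (k2.trans v1), (top_cap _ _).le, (t _).symm ▸ hc, k3, k4,
      hV (Ch.top_mono k2) (mem_filter.1 v.top_mem).2, (t _).symm ▸ h1⟩
  refine conn_of (m n hn) fun ⟨a, b, e⟩ h => ?_
  obtain ⟨k1, k2, k3, -, k5, k6, k7, -⟩ := id h
  have j : a ≤ b ∧ b.top ≤ v ∧ be A a ∉ W ∧ be A b ∈ W := ⟨k1, fun y hy =>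
    mem_filter.2 ⟨k3 (Ch.top_mono k2 hy), hV (Ch.le_top hy) k7⟩, k5, k6⟩
  exact (rch_up (m := (a, b, cap c e)) h (m (a, b) j) ⟨k1, k2.trans (le_cap k3), (top_cap _ _).le,
    (t _).symm ▸ hc, k5, k6, k7, (t _).symm ▸ h1⟩ (le2 le_rfl (le2 le_rfl (le_cap k3)))
    (le2 le_rfl (le2 le_rfl (cap_mono k2)))).trans ((k (a, b) j n hn).map
      (f := fun τ => (τ.1, τ.2, cap c τ.2)) fun p hp q hq l =>
        Rch.of_cm (m p hp) (m q hq) (Or.inl (Prod.mk_le_mk.2 ⟨(Prod.le_def.1 l).1,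
          Prod.mk_le_mk.2 ⟨(Prod.le_def.1 l).2, cap_mono (Prod.le_def.1 l).2⟩⟩)))

theorem pair_conn' (hA : IsUpperSet A) {W V : Set P} (hW : IsUpperSet W) (hV : IsLowerSet V)
    {c : Ch P} (hc : c.top ∈ A) (h1 : c.top ∉ V) {x : P} (x1 : x ∈ c.1) (x2 : x ∈ W) (x3 : x ∈ V) :
    let S : Set (Ch (Ch P) × Ch (Ch P)) :=
      {τ | τ.1 ≤ τ.2 ∧ τ.2.top ≤ c ∧ be A τ.1 ∈ W ∧ be A τ.1 ∈ V ∧ be A τ.2 ∉ V}
    S.Nonempty ∧ Conn S := by
  intro S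
  let g := c.sub (c.1.filter (· ∈ W)) ⟨x, mem_filter.2 ⟨x1, x2⟩⟩ (filter_subset _ _)
  have g1 : g ≤ c := filter_subset _ _
  have g2 : g.top = c.top := le_antisymm (Ch.top_mono g1)
    (Ch.le_top (c := g) (mem_filter.2 ⟨c.top_mem, hW (Ch.le_top x1) x2⟩))
  have g3 : g.top ∈ A := g2 ▸ hc
  have zig : ∀ {p q : Ch (Ch P) × Ch (Ch P)} (m u : Ch (Ch P)), p ∈ S → q ∈ S → p.1 ≤ m → q.1 ≤ m →
      p.2 ≤ u → q.2 ≤ u → m ≤ u → u.top ≤ c → be A m ∈ V → Rch S p q :=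
    fun m u hp hq a1 a2 a3 a4 a5 a6 a7 => rch_up (m := (m, u)) hp hq
      ⟨a5, a6, hW (be_mono hA a1) hp.2.2.1, a7, fun k => hp.2.2.2.2 (hV (be_mono hA a3) k)⟩
      (le2 a1 a3) (le2 a2 a4)
  have gv : be A (Ch.pt g) ∈ V := by
    rw [be_pt, bv_in g3]; exact hV (Ch.bot_le (c := g) (mem_filter.2 ⟨x1, x2⟩)) x3
  have m : ∀ d (h : d ≤ g), bv A d ∉ V → (Ch.pt g, Ch.pr d g h) ∈ S := fun d h k =>
    ⟨Ch.pt_le.2 (by simp), by simpa, by rw [be_pt]; exact (mem_filter.1 (bv_mem g)).2, gv,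
      by rwa [be_pr1 h (Or.inl ⟨g3, h⟩)]⟩
  have fin : ∀ d (h : d ≤ g), bv A d ∉ V →
      Rch S (Ch.pt g, Ch.pr d g h) (Ch.pt g, Ch.pr _ g (Ch.pt_le.2 g.top_mem)) := fun d h k =>
    to_top (U := Vᶜ) g3 (g2 ▸ h1) (fun d h => (Ch.pt g, Ch.pr d g h)) (fun d e j1 j2 j3 j4 =>
      zig _ (c3 d e g j1 j2) (m _ (j1.trans j2) j3) (m _ j2 j4) le_rfl le_rfl (le_of (by simp))
        (le_of (by simp)) (Ch.pt_le.2 (by simp)) (by rwa [top_c3]) gv) h k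
  refine conn_of (m _ (Ch.pt_le.2 g.top_mem) (by rwa [bv_pt, g2])) fun ⟨b, e⟩ h => ?_
  obtain ⟨k1, k2, k3, k4, k5⟩ := id h
  obtain ⟨d, d1, -, d3⟩ := exists_key A b
  obtain ⟨f, f1, f2, f3⟩ := exists_key A e
  simp only [d3, f3] at k3 k4 k5
  have dc : d ≤ c := (Ch.le_top (k1 d1)).trans k2
  have fc : f ≤ c := (Ch.le_top f1).trans k2
  rcases f2 d (k1 d1) with ⟨j1, j2⟩ | ⟨j1, j2⟩
  · have dg : d ≤ g := fun y hy => mem_filter.2 ⟨dc hy, hW (Ch.bot_le hy) (bv_in j1 ▸ k3)⟩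
    have s1 : (Ch.pt d, Ch.pr f d j2) ∈ S := ⟨Ch.pt_le.2 (by simp), by simpa, by rwa [be_pt],
      by rwa [be_pt], by rwa [be_pr1 j2 (Or.inl ⟨j1, j2⟩)]⟩
    exact (Rch.of_cm h s1 (Or.inr (le2 (Ch.pt_le.2 d1) (pr_le (h := j2) f1 (k1 d1))))).trans <|
      (zig (Ch.pr d g dg) (c3 f d g j2 dg) s1 (m f (j2.trans dg) k5) (Ch.pt_le.2 (by simp))
        (Ch.pt_le.2 (by simp)) (le_of (by simp)) (le_of (by simp))
        (le_of (by simp)) (by rwa [top_c3]) (by rwa [be_pr1 dg (Or.inl ⟨g3, dg⟩)])).trans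
      (fin _ _ k5)
  · have l := Ch.top_mono j2
    have j0 : d.top ∉ A := fun t => j1 (hA l t)
    rw [bv_off j0] at k3 k4
    rw [bv_off j1] at k5
    have xd : Ch.pt d.top ≤ d := Ch.pt_le.2 d.top_mem
    have xy : Ch.pt d.top ≤ Ch.pr _ _ l := Ch.pt_le.2 (by simp)
    have yf : Ch.pr _ _ l ≤ f := pr_le (j2 d.top_mem) f.top_mem
    have yg : Ch.pr _ _ l ≤ g := pr_le (mem_filter.2 ⟨dc d.top_mem, k3⟩)
      (mem_filter.2 ⟨fc f.top_mem, hW l k3⟩)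
    have bx : be A (Ch.pt (Ch.pt d.top)) = d.top := by rw [be_pt, bv_pt]
    have by' : bv A (Ch.pr _ _ l) ∉ V := by rwa [bv_off (by simpa), Ch.top_pr]
    have s1 : (Ch.pt d, Ch.pr d f j2) ∈ S := ⟨Ch.pt_le.2 (by simp), by simpa,
      by rwa [be_pt, bv_off j0], by rwa [be_pt, bv_off j0],
      by rwa [be_pr2 j2 (Or.inr ⟨j1, j2⟩), bv_off j1]⟩
    have s2 : (Ch.pt (Ch.pt d.top), Ch.pr _ f (xd.trans j2)) ∈ S := ⟨Ch.pt_le.2 (by simp), by simpa,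
      bx.symm ▸ k3, bx.symm ▸ k4, by rwa [be_pr2 _ (Or.inr ⟨j1, xd.trans j2⟩), bv_off j1]⟩
    have s3 : (Ch.pt (Ch.pt d.top), Ch.pr _ _ xy) ∈ S := ⟨Ch.pt_le.2 (by simp),
      by simpa using yf.trans fc, bx.symm ▸ k3, bx.symm ▸ k4,
      by rwa [be_pr2 _ (Or.inr ⟨by simpa, xy⟩)]⟩
    exact (Rch.of_cm h s1 (Or.inr (le2 (Ch.pt_le.2 d1) (pr_le (h := j2) (k1 d1) f1)))).trans <|
      (zig (Ch.pr _ d xd) (c3 _ d f xd j2) s1 s2 (Ch.pt_le.2 (by simp)) (Ch.pt_le.2 (by simp))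
        (le_of (by simp)) (le_of (by simp)) (le_of (by simp))
        (by rwa [top_c3]) (by rwa [be_pr2 _ (Or.inr ⟨j0, xd⟩), bv_off j0])).trans <|
      (zig _ (c3 _ _ f xy yf) s2 s3 le_rfl le_rfl (le_of (by simp))
        (le_of (by simp)) (Ch.pt_le.2 (by simp)) (by rwa [top_c3]) (bx.symm ▸ k4)).trans <|
      (zig (Ch.pr _ g (xy.trans yg)) (c3 _ _ g xy yg) s3 (m _ yg by') (Ch.pt_le.2 (by simp))
        (Ch.pt_le.2 (by simp)) (le_of (by simp)) (le_of (by simp))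
        (le_of (by simp)) (by rwa [top_c3])
        (by rwa [be_pr1 _ (Or.inl ⟨g3, xy.trans yg⟩), bv_pt])).trans (fin _ _ by')

theorem fibC_be (hA : IsUpperSet A) : FibC A (be A) := by
  intro c W V hW hV hc h0 h1 ⟨x, x1, x2, x3⟩
  obtain ⟨⟨n, hn⟩, k⟩ := pair_conn' hA hW hV hc h1 x1 x2 x3
  have t : ∀ b, tt (cap c b) ∈ A := fun b => by
    show (cap c b).top.top ∈ A
    rwa [top_cap]
  have m : ∀ τ : Ch (Ch P) × Ch (Ch P),
      τ.1 ≤ τ.2 ∧ τ.2.top ≤ c ∧ be A τ.1 ∈ W ∧ be A τ.1 ∈ V ∧ be A τ.2 ∉ V →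
      (Ch.pt c, cap c τ.1, cap c τ.2) ∈ Sg A (be A) c W V := fun τ ⟨k1, k2, k3, k4, k5⟩ =>
    have l := be_cap (A := A) ((Ch.top_mono k1).trans k2) hc
    ⟨pt_le_cap, cap_mono k1, (top_cap _ _).le, t _, by rwa [be_pt, bv_in hc], l.symm ▸ k3,
      l.symm ▸ k4, (be_cap k2 hc).symm ▸ k5⟩
  refine conn_of (m n hn) fun ⟨a, b, e⟩ h => ?_
  obtain ⟨k1, k2, k3, -, k5, k6, k7, k8⟩ := id h
  have j := m (b, e) ⟨k2, k3, k6, k7, k8⟩
  have lb := (Ch.top_mono k2).trans k3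
  have la := (Ch.top_mono k1).trans lb
  exact (rch_up (m := (cap c a, cap c b, cap c e)) h j ⟨cap_mono k1, cap_mono k2, (top_cap _ _).le,
    t _, (be_cap la hc).symm ▸ k5, j.2.2.2.2.2⟩ (le2 (le_cap la) (le2 (le_cap lb) (le_cap k3)))
    (le2 pt_le_cap le_rfl)).trans ((k (b, e) ⟨k2, k3, k6, k7, k8⟩ n hn).map
      (f := fun τ => (Ch.pt c, cap c τ.1, cap c τ.2)) fun p hp q hq l =>
        Rch.of_cm (m p hp) (m q hq) (Or.inl (le2 le_rfl (le2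
          (cap_mono (Prod.le_def.1 l).1) (cap_mono (Prod.le_def.1 l).2)))))

end key

theorem bStmt : BStmt := fun _ _ _ _ h h' => mu_le h.up h.sx.mono h.sx.coc h.jx h.sy.mono h.sy.coc
  (be_mono h.up) (be_mem _) (fun _ => le_rfl) (fibC_be h.up) h'

theorem cStmt : CStmt := fun _ _ _ _ h h' => mu_le h.up h.sx.mono h.sx.coc h.jx h.sy.mono h.sy.coc
  (Ch.top_mono.comp Ch.top_mono) (fun C => C.top.top_mem) (be_le _) (fibC_tt h.up) h'

end Crest.Agent.X212.Sup43
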