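import Crest.Agent.X212.Sup43.BC
import Crest.Agent.X212.Alg36.Ext
import Crest.Agent.X212.Alg36.Inc3
import Crest.Agent.X212.Hp13.M3
import Crest.Agent.X212.Cut21.Ref3

/-!
# X212 / Sup43 (helper43): CORE from its leaves, by induction on the number of crossing curves
-/

set_option autoImplicit false
set_option linter.unusedSectionVars false

open Finset Classical

noncomputable section

namespace Crest.Agent.X212.Sup43

open Crest.Agent.X212.Hp13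

section piece

variable {P : Type} [PartialOrder P] [Fintype P] {A : Set P} {X Y z : P → P → ℤ} {ω : P → ℤ}

theorem nu_anti [IsCoc A X] (hY : Mono A Y) (he : EqD A (X + Y) (cb ω)) :
    Antitone (nu ω : Lv A X → ℤ) := fun p q h => by
  obtain ⟨h1, h2⟩ := Lv.le_iff.1 h
  have d := q.2.1.dp q.1.1.bot_mem (h1 p.1.1.bot_mem) (Ch.bot_anti h1)
  have e := he _ _ d
  have m := hY _ _ d
  simp only [Pi.add_apply, cb] at e
  unfold nu
  omega

theorem th_mono [IsCoc A Y] (hX : Mono A X) (cX : Coc A X) (he : EqD A (X + Y) (cb ω)) :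
    Monotone (th X ω : Lv A Y → ℤ) := fun p q h => by
  obtain ⟨h1, h2⟩ := Lv.le_iff.1 h
  have e := he _ _ (q.2.1.dp q.1.1.bot_mem (h1 p.1.1.bot_mem) (Ch.bot_anti h1))
  have m := hX _ _ (q.2.1.dp (h1 p.1.1.top_mem) q.1.1.top_mem (Ch.top_mono h1))
  have e1 := cX.add' q.2.1 q.1.1.bot_mem (h1 p.1.1.bot_mem) q.1.1.top_mem (Ch.bot_anti h1)
    (Ch.le_top (h1 p.1.1.bot_mem))
  have e2 := cX.add' q.2.1 (h1 p.1.1.bot_mem) (h1 p.1.1.top_mem) q.1.1.top_mem p.1.1.bot_le_top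
    (Ch.top_mono h1)
  simp only [Pi.add_apply, cb] at e
  unfold th
  omega

/-- a positive piece is a disc on one side of its boundary -/
theorem piece_cases [IsCoc A z] (hM : Mf 3 A) (hz : Sf A z) {f : Lv A z → ℤ}
    (hf : Monotone f ∨ Antitone f) {E : Set (Lv A z)} {n : ℤ}
    (hE : IsCmp {p | p ∈ LA A z ∧ f p = n} E) (hp : 0 < chiC E) :
    chiC E = 1 ∧ (IsLowerSet E ∧ ¬ IsUpperSet E ∨ IsUpperSet E ∧ ¬ IsLowerSet E) := by
  have sub : E ⊆ LA A z := fun p k => (hE.sub k).1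
  have conv : E.OrdConnected := ⟨fun a ha b hb x hx => hE.clopen ha ⟨LA.upper (sub ha) hx.1, by
    have e1 := (hE.sub ha).2
    have e2 := (hE.sub hb).2
    rcases hf with hf | hf <;> have := hf hx.1 <;> have := hf hx.2 <;> omega⟩ (Or.inl hx.1)⟩
  have both : IsLowerSet E → ¬ IsUpperSet E := fun hl hu => by
    obtain ⟨x, hx⟩ := hE.ne
    obtain ⟨p, p1, q, q1, k⟩ := hz.noCl _ (isCmp_cmp (sub hx))
    exact q1 (sub (hl k ((Rch.in_clopen (fun a ha b _ j => j.elim (fun j => hu j ha)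
      fun j => hl j ha) hx p1.2).mem hx)))
  have M := Sf30.mf_LA hM hz.mono
  have esc : ¬ (IsLowerSet E ∧ IsUpperSet E) → eu E ≤ 1 := fun k => by
    have : ∃ p ∈ E, ∃ q, q ∉ E ∧ Cm p q := by
      by_contra j
      push Not at j
      exact k ⟨fun a b l ha => by_contra fun t => j a ha b t (Or.inr l),
        fun a b l ha => by_contra fun t => j a ha b t (Or.inl l)⟩
    obtain ⟨p, p1, q, q1, l⟩ := this
    exact Alg36.Mf.eu_le_one M sub hE.conn fun a ha =>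
      ⟨p, sub p1, (hE.conn a ha p p1).mono sub, q, q1, l⟩
  have le := esc fun k => both k.1 k.2
  rcases Alg36.extStmt _ _ E M sub conv hE.conn (Sf30.chiC_eq_ee hM hz.mono sub ▸ hp) with h | h
  · refine ⟨?_, Or.inl ⟨h, both h⟩⟩
    rw [← ee_lower h, ← Sf30.chiC_eq_ee hM hz.mono sub] at le
    omega
  · refine ⟨?_, Or.inr ⟨h, fun k => both k h⟩⟩
    rw [← Sf30.chiC_eq_eu hM hz.mono sub h] at le
    omega

end piece

/-- a positive piece of `X` -/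
theorem x_piece {s : St} {X Y : s.P → s.P → ℤ} {ω : s.P → ℤ}
    [IsCoc s.A X] [IsCoc s.A Y] [IsCoc s.A (X + Y)] (h : Pos s X Y ω)
    (hp : 0 < chiC (Cls s.A (X + Y))) : ∃ E, Pc (LA s.A X) (nu ω) E ∧ 0 < chiC E := by
  rcases dec' h hp with k | ⟨E, ⟨n, h1⟩, h2, h3⟩
  · exact k
  obtain ⟨e, ⟨a, b⟩ | ⟨a, b⟩⟩ := piece_cases h.good.mf h.sy
    (Or.inl (th_mono h.sx.mono h.sx.coc h.ex)) h1 h2
  · exact Alg36.incLStmt s X Y ω E h ⟨⟨n, h1⟩, fun p hp q k => (h1.sub (a k hp)).1⟩ e a b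
  · exact Alg36.incU s X Y ω E h ⟨n, h1⟩ h3 e a b

theorem up2 {s : St} (h : IsUpperSet s.A) : IsUpperSet s.sd.sd.A :=
  (desc2 s).A_eq ▸ h.preimage (desc2 s).mono

theorem Pos.B {s : St} {X Y : s.P → s.P → ℤ} {ω : s.P → ℤ} (h : Pos s X Y ω) :
    ∃ ω', Pos s.sd.sd (pb (be s.A) X) (pb (be s.A) Y) ω' :=
  let ⟨a, b, c⟩ := be_ref Cut21.refStmt h.good h.up h.sx
  let ⟨d, e, _⟩ := be_ref Cut21.refStmt h.good h.up h.sy
  h.next (desc2 s) a b c (fun _ _ k => h.jx _ _ (dp_be h.up k)) d e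

theorem Pos.C {s : St} {X Y : s.P → s.P → ℤ} {ω : s.P → ℤ} (h : Pos s X Y ω) :
    ∃ ω', Pos s.sd.sd (pb tt X) (pb (be s.A) Y) ω' :=
  let ⟨d, e, _⟩ := be_ref Cut21.refStmt h.good h.up h.sy
  h.next (desc2 s) ((desc2 s).sf h.sx) Eqv.rfl ((desc2 s).chi X)
    (fun _ _ k => h.jx _ _ (Dp.map (desc2 s).mono k)) d e

/-- one step: the measure drops -/
theorem step {s : St} {X Y : s.P → s.P → ℤ} {ω : s.P → ℤ} [IsCoc s.A X] (h : Pos s X Y ω)
    {E : Set (Lv s.A X)} (hE : Pc (LA s.A X) (nu ω) E) (hp : 0 < chiC E) :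
    ∃ t f X' Y' ω', ∃ h' : Pos t X' Y' ω', Desc s t f ∧ Eqv t.A (pb f (X + Y)) (X' + Y') ∧
      chi s.A X + chi s.A Y ≤ chi t.A X' + chi t.A Y' ∧
      mu t.A X' Y' h'.sy.coc < mu s.A X Y h.sy.coc := by
  obtain ⟨n, hn⟩ := hE.cmp
  obtain ⟨ω1, p1⟩ := h.B
  obtain ⟨-, x1, x2⟩ := be_ref Cut21.refStmt h.good h.up h.sx
  obtain ⟨-, y1, y2⟩ := be_ref Cut21.refStmt h.good h.up h.sy
  have m1 := bStmt s X Y ω h p1.sy.coc
  obtain ⟨e, ⟨a, b⟩ | ⟨a, b⟩⟩ := piece_cases h.good.mf h.sx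
    (Or.inr (nu_anti h.sy.mono h.ex)) hn hp
  · obtain ⟨Y', k1, k2, k3, k4⟩ := m3Stmt s X Y ω ω1 E h hE e a b p1
    obtain ⟨ω', p⟩ := p1.next Desc.refl p1.sx Eqv.rfl rfl p1.jx k1 k2
    exact ⟨_, _, _, _, _, p, desc2 s, x1.add (y1.trans k2), by omega, k4.trans_le m1⟩
  · obtain ⟨ω2, p2⟩ := p1.C
    have m2 := cStmt _ _ _ _ p1 p2.sy.coc
    obtain ⟨-, z1, z2⟩ := be_ref Cut21.refStmt p1.good p1.up p1.sy
    obtain ⟨Y', k1, k2, k3, k4⟩ := m4Stmt s X Y ω ω2 E h hE e a b p2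
    obtain ⟨ω', p⟩ := p2.next Desc.refl p2.sx Eqv.rfl rfl p2.jx k1 k2
    have c := (desc2 s.sd.sd).chi (pb (be s.A) X)
    refine ⟨_, _, _, _, _, p, (desc2 s).trans (desc2 s.sd.sd), ?_, by omega,
      k4.trans_le (m2.trans m1)⟩
    exact ((desc2 s.sd.sd).eqv (x1.add y1)).trans (Eqv.rfl.add (z1.trans k2))

theorem coreStmt : CoreStmt := by
  intro s X Y ω h
  induction e : mu s.A X Y h.sy.coc using Nat.strong_induction_on generalizing s with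
  | _ n ih =>
  have : IsCoc s.A X := ⟨h.sx.coc⟩
  have : IsCoc s.A Y := ⟨h.sy.coc⟩
  have : IsCoc s.A (X + Y) := ⟨h.sx.coc.add h.sy.coc⟩
  by_cases hp : 0 < chiC (Cls s.A (X + Y))
  · obtain ⟨E, h1, h2⟩ := x_piece h hp
    obtain ⟨t, f, X', Y', ω', h', d, k1, k2, k3⟩ := step h h1 h2
    obtain ⟨u, g, w, d', j1, j2, j3⟩ := ih _ (e ▸ k3) t X' Y' ω' h' rfl
    exact ⟨u, f ∘ g, w, d.trans d', j1, (d'.eqv k1).trans j2, k2.trans j3⟩
  · obtain ⟨d1, d2, d3, -⟩ := drop h.good.bnd (h.sx.mono.add h.sy.mono)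
    exact ⟨s, id, _, Desc.refl, d1, d2, by rw [d3, chi_add]; omega⟩

end Crest.Agent.X212.Sup43
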