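import Crest.Agent.X212.Sup43.Defs
import Crest.Agent.X212.Alg36.Sd2
import Crest.Agent.X212.Cut21.Tb

/-!
# X212 / Sup43 (helper43): DEC, the bridge `thk = pb be`, the refinements keep `Pos`
-/

set_option autoImplicit false
set_option linter.unusedSectionVars false

open Finset Classical

noncomputable section

namespace Crest.Agent.X212.Sup43

open Crest.Agent.X212.Hp13

section dec

variable {P : Type} [PartialOrder P] [Fintype P] {A : Set P} {X Y : P → P → ℤ} {ω : P → ℤ}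

/-- a cell of `X` as a cell of the sum -/
def fX (hY : Mono A Y) (p : Lv A X) : Lv A (X + Y) :=
  ⟨p.1, p.2.1, p.2.2.1, by
    have := hY _ _ p.2.1.bt
    have := p.2.2.2
    show _ < X _ _ + Y _ _
    omega⟩

/-- a cell of `Y` as a cell of the sum -/
def fY (hX : Mono A X) (p : Lv A Y) : Lv A (X + Y) :=
  ⟨(p.1.1, X p.1.1.bot p.1.1.top + p.1.2), p.2.1, add_nonneg (hX _ _ p.2.1.bt) p.2.2.1, by
    have := p.2.2.2
    show X p.1.1.bot p.1.1.top + p.1.2 < X p.1.1.bot p.1.1.top + Y p.1.1.bot p.1.1.top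
    omega⟩

theorem chiC_inj {z w : P → P → ℤ} (g : Lv A z → Lv A w) (hg : ∀ p, (g p).1.1 = p.1.1)
    (hi : Function.Injective g) (S : Set (Lv A z)) (T : Set (Lv A w)) (h1 : ∀ p ∈ S, g p ∈ T)
    (h2 : ∀ r ∈ T, ∃ p ∈ S, g p = r) : chiC S = chiC T :=
  sum_bij (fun p _ => g p) (fun p hp => mem_filter.2 ⟨mem_univ _, h1 p (mem_filter.1 hp).2⟩)
    (fun _ _ _ _ e => hi e) (fun r hr => let ⟨p, k, e⟩ := h2 r (mem_filter.1 hr).2
      ⟨p, mem_filter.2 ⟨mem_univ _, k⟩, e⟩) fun p _ => by rw [hg]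

theorem chiC_sum (hX : Mono A X) (hY : Mono A Y) (S : Set (Lv A (X + Y))) :
    chiC S = chiC (fX hY ⁻¹' S) + chiC (fY hX ⁻¹' S) := by
  rw [chiC_split S {r | r.1.2 < X r.1.1.bot r.1.1.top}]
  congr 1 <;> symm
  · refine chiC_inj (fX hY) (fun _ => rfl) (fun p q e => ?_) _ _
      (fun p hp => ⟨hp, p.2.2.2⟩) fun r hr => ⟨⟨r.1, r.2.1, r.2.2.1, hr.2⟩, hr.1, rfl⟩
    have e1 : p.1 = q.1 := congrArg (fun t : Lv A (X + Y) => t.1) e
    exact Subtype.ext e1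
  · refine chiC_inj (fY hX) (fun _ => rfl) (fun p q e => ?_) _ _ (fun p hp => ⟨hp, fun k => ?_⟩)
      fun r hr => ?_
    · have e1 : p.1.1 = q.1.1 := congrArg (fun t : Lv A (X + Y) => t.1.1) e
      have e2 : X p.1.1.bot p.1.1.top + p.1.2 = X q.1.1.bot q.1.1.top + q.1.2 :=
        congrArg (fun t : Lv A (X + Y) => t.1.2) e
      rw [e1] at e2
      exact Lv.ext e1 (by omega)
    · have := p.2.2.1
      have k' : X p.1.1.bot p.1.1.top + p.1.2 < X p.1.1.bot p.1.1.top := k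
      omega
    · have h3 : X r.1.1.bot r.1.1.top ≤ r.1.2 := not_lt.1 hr.2
      have h4 : r.1.2 < X r.1.1.bot r.1.1.top + Y r.1.1.bot r.1.1.top := r.2.2.2
      have e : fY hX ⟨(r.1.1, r.1.2 - X r.1.1.bot r.1.1.top), r.2.1, by simp only; omega,
          by simp only; omega⟩ = r := Lv.ext rfl (by simp [fY])
      exact ⟨_, by rw [Set.mem_preimage, e]; exact hr.1, e⟩

theorem chiC_level {z : P → P → ℤ} (T : Set (Lv A z)) (f : Lv A z → ℤ) (h : 0 < chiC T) :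
    ∃ n, 0 < chiC (T ∩ {p | f p = n}) := by
  by_contra k
  push Not at k
  rw [chiC, ← sum_fiberwise_of_maps_to (g := f) (t := univ.image f)
    fun p _ => mem_image_of_mem _ (mem_univ p)] at h
  refine absurd h (not_lt.2 (sum_nonpos fun n _ => ?_))
  have := k n
  rw [chiC] at this
  convert this using 2
  ext p
  simp

theorem sum_le [IsCoc A (X + Y)] (he : EqD A (X + Y) (cb ω)) {p q : Lv A (X + Y)}
    (h : p.1.1 ≤ q.1.1) (e : ω p.1.1.bot + p.1.2 = ω q.1.1.bot + q.1.2) : p ≤ q := by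
  refine Lv.le_iff.2 ⟨h, ?_⟩
  rw [he _ _ (q.2.1.dp q.1.1.bot_mem (h p.1.1.bot_mem) (Ch.bot_anti h)), cb]
  omega

theorem exists_piece {z : P → P → ℤ} [IsCoc A z] [IsCoc A (X + Y)] (he : EqD A (X + Y) (cb ω))
    (g : Lv A z → Lv A (X + Y)) (hg : ∀ p, (g p).1.1 = p.1.1) (f : Lv A z → ℤ)
    (hf : ∀ p, f p = ω p.1.1.bot + (g p).1.2) (h : 0 < chiC (g ⁻¹' Cls A (X + Y))) :
    ∃ E n, IsCmp {p | p ∈ LA A z ∧ f p = n} E ∧ 0 < chiC E ∧ ∀ p ∈ E, g p ∈ Cls A (X + Y) := by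
  obtain ⟨n, hn⟩ := chiC_level _ f h
  have la : ∀ p, g p ∈ LA A (X + Y) ↔ p ∈ LA A z := fun p => by
    simp only [LA, Set.mem_ofPred_eq, hg]
  have le : ∀ p q, p ≤ q → f p = f q → g p ≤ g q := fun p q k e =>
    sum_le he (by rw [hg, hg]; exact Lv.ch_le k) (by rw [hg, hg, ← hf, ← hf, e])
  have cl : ∀ p ∈ g ⁻¹' Cls A (X + Y) ∩ {p | f p = n}, ∀ q ∈ {p | p ∈ LA A z ∧ f p = n}, Cm p q →
      q ∈ g ⁻¹' Cls A (X + Y) ∩ {p | f p = n} := fun p hp q hq k =>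
    ⟨Cls.clopen hp.1 (Rch.of_cm hp.1.1 ((la q).2 hq.1) (k.imp
      (fun k => le p q k (hp.2.trans hq.2.symm)) fun k => le q p k (hq.2.trans hp.2.symm))), hq.2⟩
  have sub : g ⁻¹' Cls A (X + Y) ∩ {p | f p = n} ⊆ {p | p ∈ LA A z ∧ f p = n} :=
    fun p hp => ⟨(la p).1 hp.1.1, hp.2⟩
  obtain ⟨p, hp, pos⟩ := exists_cmp_pos sub cl hn
  exact ⟨_, n, isCmp_cmp (sub hp), pos, fun q hq => ((Rch.in_clopen cl hp hq.2).mem hp).1⟩

end dec

theorem dec' {s : St} {X Y : s.P → s.P → ℤ} {ω : s.P → ℤ} [iX : IsCoc s.A X] [IsCoc s.A Y]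
    [IsCoc s.A (X + Y)] (h : Pos s X Y ω) (hp : 0 < chiC (Cls s.A (X + Y))) :
    (∃ E, Pc (LA s.A X) (nu ω) E ∧ 0 < chiC E) ∨
      ∃ E, (∃ n, IsCmp {p | p ∈ LA s.A Y ∧ th X ω p = n} E) ∧ 0 < chiC E ∧
        ∀ p ∈ E, ∀ q, q ≤ p → th X ω q = th X ω p → q ∈ LA s.A Y := by
  rw [chiC_sum h.sx.mono h.sy.mono] at hp
  by_cases k : 0 < chiC (fX h.sy.mono ⁻¹' Cls s.A (X + Y))
  · obtain ⟨E, n, h1, h2, h3⟩ := exists_piece h.ex (fX h.sy.mono) (fun _ => rfl) (nu ω)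
      (fun _ => rfl) k
    refine Or.inl ⟨E, ⟨⟨n, h1⟩, fun p hp q hq => by_contra fun hn => ?_⟩, h2⟩
    obtain ⟨l1, l2⟩ := Lv.le_iff.1 hq
    have hb : p.1.1.bot ≤ q.1.1.top := Ch.bot_le (l1 q.1.1.top_mem)
    have ht : q.1.1.top ∉ s.A := fun j => hn ⟨_, q.1.1.top_mem, j⟩
    have hd : Ch.pr _ _ hb ≤ p.1.1 := fun x hx => by
      rcases (by simpa using hx : x = p.1.1.bot ∨ x = q.1.1.top) with rfl | rfl
      exacts [p.1.1.bot_mem, l1 q.1.1.top_mem]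
    have e := iX.coc.add' p.2.1 p.1.1.bot_mem (l1 q.1.1.bot_mem) (l1 q.1.1.top_mem)
      (Ch.bot_anti l1) q.1.1.bot_le_top
    have m := h.sy.mono _ _ (p.2.1.dp p.1.1.bot_mem (l1 q.1.1.top_mem) hb)
    have q2 := q.2.2.2
    let r : Lv s.A (X + Y) := ⟨(Ch.pr _ _ hb, p.1.2), p.2.1.mono hd, p.2.2.1, by
      simp only [Ch.bot_pr, Ch.top_pr, Pi.add_apply]; omega⟩
    refine (h3 p hp).2 ⟨_, mem_cmp_self (h3 p hp).1, r, ?_, sum_le h.ex (q := fX h.sy.mono p) hd ?_⟩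
    · rintro ⟨x, hx, hA⟩
      rcases (by simpa [r] using hx : x = p.1.1.bot ∨ x = q.1.1.top) with rfl | rfl
      exacts [ht (h.up hb hA), ht hA]
    · simp [r, fX]
  · obtain ⟨E, n, h1, h2, h3⟩ := exists_piece h.ex (fY h.sx.mono) (fun _ => rfl) (th X ω)
      (fun _ => add_assoc _ _ _) (by omega)
    refine Or.inr ⟨E, ⟨n, h1⟩, h2, fun p hp q l e => by_contra fun hn => (h3 p hp).2
      ⟨_, mem_cmp_self (h3 p hp).1, fY h.sx.mono q, hn, sum_le h.ex (p := fY h.sx.mono q)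
        (q := fY h.sx.mono p) (Lv.ch_le (p := q) (q := p) l) ?_⟩⟩
    exact (add_assoc _ _ _).symm.trans (e.trans (add_assoc _ _ _))

theorem decStmt : DecStmt := fun _ _ _ _ _ _ _ h hp =>
  (dec' h hp).imp_right fun ⟨E, h1, h2, _⟩ => ⟨E, h1, h2⟩

section thk

variable {P : Type} [PartialOrder P] {A : Set P} {z : P → P → ℤ}

theorem dom_tt {C D : Ch (Ch P)} (h : Dp (Ch.top ⁻¹' (Ch.top ⁻¹' A)) C D) : Dom A D.top := by
  obtain ⟨a, ha, k⟩ := h.dom_top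
  rcases k _ D.top_mem with j | j
  · exact Mt.dom ⟨_, j a.top_mem, ha⟩
  · exact (Mt.dom ⟨_, a.top_mem, ha⟩).mono j

theorem dep_eq (hz : Coc A z) (hm : Mono A z) {C : Ch (Ch P)} (hC : Dom A C.top) :
    Cut21.dep (Cut21.dT A z) z C = z (be A C) C.top.top := by
  have val : ∀ d ∈ C.1, Cut21.dT A z d + z d.top C.top.top =
      z (if d.top ∈ A then d.bot else d.top) C.top.top := fun d hd => by
    have l := Ch.le_top hd
    unfold Cut21.dT
    split_ifs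
    · rw [hz.add' hC (l d.bot_mem) (l d.top_mem) C.top.top_mem d.bot_le_top (Ch.top_mono l)]
    · rw [zero_add]
  have anti : ∀ x ∈ C.top.1, x ≤ be A C → z (be A C) C.top.top ≤ z x C.top.top := fun x hx k => by
    rw [hz.add' hC hx (be_mem A C) C.top.top_mem k (be_le A C)]
    have := hm _ _ (hC.dp hx (be_mem A C) k)
    omega
  refine le_antisymm ?_ (le_inf' _ _ fun d hd => ?_)
  · rcases be_cases A C with ⟨k, e⟩ | ⟨c, h1, h2, -, e⟩
    · refine (inf'_le _ C.bot_mem).trans ?_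
      rw [val _ C.bot_mem, if_pos (k _ C.bot_mem), e]
    · refine (inf'_le _ h1).trans ?_
      rw [val _ h1, if_neg h2, e]
  · rw [val d hd]
    have l := Ch.le_top hd
    split_ifs with k
    · exact anti _ (l d.bot_mem) ((Ch.bot_anti (Ch.bot_le hd)).trans (bb_le_be A C))
    · refine anti _ (l d.top_mem) ?_
      rcases be_cases A C with ⟨j, -⟩ | ⟨c, -, -, h3, e⟩
      · exact absurd (j d hd) k
      · rw [e]; exact Ch.top_mono (h3 d hd k)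

theorem thk_eq (hA : IsUpperSet A) (hz : Coc A z) (hm : Mono A z) :
    EqD (Ch.top ⁻¹' (Ch.top ⁻¹' A)) (pb (be A) z) (Cut21.thk A z) := fun C D h => by
  have hD := dom_tt h
  have l := Ch.top_mono h.le
  show z (be A C) (be A D) = z C.top.top D.top.top -
    (Cut21.dep (Cut21.dT A z) z D - Cut21.dep (Cut21.dT A z) z C)
  rw [dep_eq hz hm hD, dep_eq hz hm (hD.mono l)]
  have e1 := hz.add' hD (l (be_mem A C)) (be_mem A D) D.top.top_mem (be_mono hA h.le) (be_le A D)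
  have e2 := hz.add' hD (l (be_mem A C)) (l C.top.top_mem) D.top.top_mem (be_le A C)
    (Ch.top_mono l)
  omega

theorem dp_be (hA : IsUpperSet A) {C D : Ch (Ch P)} (h : Dp (Ch.top ⁻¹' (Ch.top ⁻¹' A)) C D) :
    Dp A (be A C) (be A D) :=
  (dom_tt h).dp (Ch.top_mono h.le (be_mem A C)) (be_mem A D) (be_mono hA h.le)

end thk

theorem desc2 (s : St) : Desc s s.sd.sd tt := (Desc.sd s).trans (Desc.sd s.sd)

/-- the thickened surface -/
theorem be_ref (hR : Cut21.RefStmt) {s : St} {z : s.P → s.P → ℤ} (hs : Good s)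
    (hA : IsUpperSet s.A) (hz : Sf s.A z) : Sf s.sd.sd.A (pb (be s.A) z) ∧
      Eqv s.sd.sd.A (pb tt z) (pb (be s.A) z) ∧ chi s.sd.sd.A (pb (be s.A) z) = chi s.A z := by
  have e := thk_eq hA hz.coc hz.mono
  obtain ⟨a, b, c, d, -⟩ := hR s z (Cut21.dT s.A z) hs.conv (Alg36.Good.desc hs (desc2 s)).mf hz.coc
    hz.mono ⟨fun d hd => by
      unfold Cut21.dT; split_ifs; exacts [hz.mono _ _ hd.bt, le_rfl], fun d hd => by
      unfold Cut21.dT; split_ifs; exacts [le_rfl, hz.mono _ _ hd.bt], fun d hd => if_neg hd⟩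
  have a' : Eqv s.sd.sd.A (pb tt z) (pb (be s.A) z) := a.trans (Eqv.of_eqD e.symm)
  exact ⟨Cut21.sf_iff.2 ⟨b.congr e, a'.coc ((desc2 s).coc hz.coc), (d hz.nc).congr e⟩, a',
    (chi_congr e).trans c⟩

theorem exists_pot {s t : St} {f : t.P → s.P} {X Y : s.P → s.P → ℤ} {ω : s.P → ℤ}
    {X' Y' : t.P → t.P → ℤ} (hd : Desc s t f) (h : EqD s.A (X + Y) (cb ω))
    (e : Eqv t.A (pb f (X + Y)) (X' + Y')) : ∃ ω', EqD t.A (X' + Y') (cb ω') :=
  let ⟨g, _, k⟩ := e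
  ⟨ω ∘ f + g, k.trans (by rw [cb_add]; exact (hd.eqD h).add EqD.rfl)⟩

theorem Pos.next {s t : St} {f : t.P → s.P} {X Y : s.P → s.P → ℤ} {ω : s.P → ℤ}
    {X' Y' : t.P → t.P → ℤ} (h : Pos s X Y ω) (hd : Desc s t f) (sx : Sf t.A X')
    (ex : Eqv t.A (pb f X) X') (cx : chi t.A X' = chi s.A X)
    (jx : ∀ x y, Dp t.A x y → X' x y ≤ 1) (sy : Sf t.A Y') (ey : Eqv t.A (pb f Y) Y') :
    ∃ ω', Pos t X' Y' ω' :=
  let ⟨ω', k⟩ := exists_pot hd h.ex (ex.add ey)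
  ⟨ω', Alg36.Good.desc h.good hd, hd.A_eq ▸ h.up.preimage hd.mono, sx,
    (h.mx.desc hd).of_eqv ex (by rw [cx, hd.chi]), jx, sy, k⟩

end Crest.Agent.X212.Sup43
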