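import Crest.Agent.X212.Sup43.Dec

/-!
# X212 / Sup43 (helper43): counting the crossing curves after a refinement
-/

set_option autoImplicit false
set_option linter.unusedSectionVars false

open Finset Classical

noncomputable section

namespace Crest.Agent.X212.Sup43

open Crest.Agent.X212.Hp13

theorem ncmp_le {P Q : Type} [PartialOrder P] [PartialOrder Q] [Fintype P] {E : Set P} {E' : Set Q}
    (G : P → Set Q) (ne : ∀ e ∈ E, (G e).Nonempty)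
    (conn : ∀ e ∈ E, ∀ p ∈ G e, ∀ q ∈ G e, Rch E' p q)
    (mono : ∀ e ∈ E, ∀ e' ∈ E, e ≤ e' → G e ⊆ G e') (cov : ∀ p ∈ E', ∃ e ∈ E, p ∈ G e) :
    ncmp E' ≤ ncmp E := by
  refine (Set.ncard_le_ncard (t := (fun C : Set P => {q | q ∈ E' ∧ ∃ e ∈ C, ∃ p ∈ G e, Rch E' p q})
    '' {C | IsCmp E C}) ?_ ((Set.toFinite _).image _)).trans (Set.ncard_image_le (Set.toFinite _))
  rintro _ ⟨p, hp, rfl⟩
  obtain ⟨e, he, k⟩ := cov p hp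
  refine ⟨_, isCmp_cmp he, Set.ext fun q => ⟨fun ⟨h1, e', h2, p', h3, h4⟩ => ⟨h1, Rch.trans ?_ h4⟩,
    fun ⟨h1, h2⟩ => ⟨h1, e, mem_cmp_self he, p, k, h2⟩⟩⟩
  refine h2.2.ind (p := fun t => ∀ r ∈ G t, Rch E' p r) (conn e he p k) (fun a ha b hb l => ?_) p' h3
  obtain ⟨r, hr⟩ := ne a ha
  exact ⟨fun j s hs => (j r hr).trans (conn b hb r (mono a ha b hb l hr) s hs),
    fun j s hs => j s (mono a ha b hb l hs)⟩

section tri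

variable {P : Type} [PartialOrder P] {A : Set P} {X Y : P → P → ℤ}

/-- `Y` jumps at level `k` on `a ≤ b`, `X` jumps on `b ≤ c` -/
structure Tr (A : Set P) (X Y : P → P → ℤ) (a b c : P) (k : ℤ) : Prop where
  ab : a ≤ b
  bc : b ≤ c
  mem : c ∈ A
  nn : 0 ≤ k
  lt : k < Y a b
  one : 1 ≤ X b c

/-- the cell contains the triple -/
def On (q : Lv A Y) (a b c : P) (k : ℤ) : Prop :=
  a ∈ q.1.1.1 ∧ b ∈ q.1.1.1 ∧ c ∈ q.1.1.1 ∧ q.1.2 = k + Y q.1.1.bot a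

/-- the chain of a triple -/
def c3 (a b c : P) (h1 : a ≤ b) (h2 : b ≤ c) : Ch P :=
  (Ch.pr b c h2).ins a fun x hx => Or.inl <| by
    rcases (by simpa using hx : x = b ∨ x = c) with rfl | rfl
    exacts [h1, h1.trans h2]

@[simp] theorem mem_c3 {a b c x : P} {h1 : a ≤ b} {h2 : b ≤ c} :
    x ∈ (c3 a b c h1 h2).1 ↔ x = a ∨ x = b ∨ x = c := by simp [c3]

theorem bot_c3 {a b c : P} (h1 : a ≤ b) (h2 : b ≤ c) : (c3 a b c h1 h2).bot = a :=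
  Ch.bot_eq (by simp) fun x hx => by
    rcases mem_c3.1 hx with rfl | rfl | rfl
    exacts [le_rfl, h1, h1.trans h2]

theorem top_c3 {a b c : P} (h1 : a ≤ b) (h2 : b ≤ c) : (c3 a b c h1 h2).top = c :=
  Ch.top_eq (by simp) fun x hx => by
    rcases mem_c3.1 hx with rfl | rfl | rfl
    exacts [h1.trans h2, h2, le_rfl]

theorem c3_le {a b c : P} {h1 : a ≤ b} {h2 : b ≤ c} {d : Ch P} (ha : a ∈ d.1) (hb : b ∈ d.1)
    (hc : c ∈ d.1) : c3 a b c h1 h2 ≤ d := fun x hx => by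
  rcases mem_c3.1 hx with rfl | rfl | rfl <;> assumption

theorem pr_le {a b : P} {h : a ≤ b} {d : Ch P} (ha : a ∈ d.1) (hb : b ∈ d.1) : Ch.pr a b h ≤ d :=
  fun x hx => by rcases (by simpa using hx : x = a ∨ x = b) with rfl | rfl <;> assumption

variable [iY : IsCoc A Y] {a b c a' b' c' : P} {k k' : ℤ}

theorem Tr.mem_II (hX : Mono A X) (cX : Coc A X) (h : Tr A X Y a b c k) {q : Lv A Y}
    (o : On q a b c k) : q ∈ II A X Y := by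
  obtain ⟨o1, o2, o3, o4⟩ := o
  let r : Lv A Y :=
    ⟨(Ch.pr a b h.ab, k), q.2.1.mono (pr_le (h := h.ab) o1 o2), h.nn, by simpa using h.lt⟩
  have l : r ≤ q := Lv.le_iff.2 ⟨pr_le (h := h.ab) o1 o2, by simpa [r] using o4⟩
  refine ⟨⟨c, o3, h.mem⟩, r, l, ?_⟩
  have := hX _ _ (q.2.1.dp o3 q.1.1.top_mem (Ch.le_top o3))
  have := h.one
  simp only [r, Ch.top_pr, cX.add' q.2.1 o2 o3 q.1.1.top_mem h.bc (Ch.le_top o3)]
  omega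

/-- the least cell of a triple -/
theorem Tr.cell (hY : Mono A Y) (h : Tr A X Y a b c k) :
    ∃ r : Lv A Y, r.1.1 = c3 a b c h.ab h.bc ∧ On r a b c k ∧ ∀ q, On q a b c k → r ≤ q := by
  have d : Dom A (c3 a b c h.ab h.bc) := Mt.dom ⟨c, by simp, h.mem⟩
  refine ⟨⟨(c3 a b c h.ab h.bc, k), d, h.nn, ?_⟩, rfl, ⟨by simp, by simp, by simp, ?_⟩,
    fun q o => Lv.le_iff.2 ⟨c3_le (h1 := h.ab) (h2 := h.bc) o.1 o.2.1 o.2.2.1,
      by simpa [bot_c3] using o.2.2.2⟩⟩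
  · have := hY _ _ (Dp.of_right h.mem h.bc)
    have := h.lt
    simp only [bot_c3, top_c3, iY.coc.add' d (x := a) (y := b) (w := c) (by simp) (by simp) (by simp)
      h.ab h.bc]
    omega
  · simp only [bot_c3, dom_zero (z := Y) d (x := a) (by simp), add_zero]

theorem On.up {p q : Lv A Y} (o : On p a b c k) (h : p ≤ q) : On q a b c k := by
  obtain ⟨h1, h2⟩ := Lv.le_iff.1 h
  refine ⟨h1 o.1, h1 o.2.1, h1 o.2.2.1, ?_⟩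
  rw [h2, o.2.2.2, iY.coc.add' q.2.1 q.1.1.bot_mem (h1 p.1.1.bot_mem) (h1 o.1) (Ch.bot_anti h1)
    (Ch.bot_le o.1)]
  ring

theorem Tr.rch (hX : Mono A X) (cX : Coc A X) (hY : Mono A Y) (h : Tr A X Y a b c k) {p q : Lv A Y}
    (hp : On p a b c k) (hq : On q a b c k) : Rch (II A X Y) p q :=
  let ⟨_, _, o, l⟩ := h.cell hY
  (Rch.of_cm (h.mem_II hX cX hp) (h.mem_II hX cX o) (Or.inr (l p hp))).trans
    (Rch.of_cm (h.mem_II hX cX o) (h.mem_II hX cX hq) (Or.inl (l q hq)))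

theorem Tr.exists_on (hY : Mono A Y) (h : Tr A X Y a b c k) {d : Ch P} (ha : a ∈ d.1) (hb : b ∈ d.1)
    (hc : c ∈ d.1) : ∃ q : Lv A Y, q.1.1 = d ∧ On q a b c k :=
  let ⟨r, e, o, _⟩ := h.cell hY
  let ⟨q, q1, q2⟩ := Lv.exists_ge hY r (Mt.dom ⟨c, hc, h.mem⟩) (e ▸ c3_le ha hb hc)
  ⟨q, q1, o.up q2⟩

theorem exists_tr (hA : IsUpperSet A) {q : Lv A Y} (h : q ∈ II A X Y) :
    ∃ x, Tr A X Y q.1.1.bot x q.1.1.top q.1.2 ∧ On q q.1.1.bot x q.1.1.top q.1.2 := by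
  obtain ⟨⟨y, y1, y2⟩, r, h1, h2⟩ := h
  obtain ⟨l1, l2⟩ := Lv.le_iff.1 (show r ≤ q from h1)
  have t := l1 r.1.1.top_mem
  refine ⟨r.1.1.top, ⟨Ch.bot_le t, Ch.le_top t, hA (Ch.le_top y1) y2, q.2.2.1, ?_, h2⟩,
    q.1.1.bot_mem, t, q.1.1.top_mem, by rw [dom_zero (z := Y) q.2.1 q.1.1.bot_mem, add_zero]⟩
  have := r.2.2.2
  rw [iY.coc.add' q.2.1 q.1.1.bot_mem (l1 r.1.1.bot_mem) t (Ch.bot_anti l1) r.1.1.bot_le_top]
  omega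

/-- two triples in the product order -/
theorem Tr.rch_le (hX : Mono A X) (cX : Coc A X) (hY : Mono A Y)
    (h : Tr A X Y a b c k) (h' : Tr A X Y a' b' c' k') (la : a ≤ a') (lb : b ≤ b') (lc : c ≤ c')
    (e : k = k' + Y a a') {p q : Lv A Y} (hp : On p a b c k) (hq : On q a' b' c' k') :
    Rch (II A X Y) p q := by
  have ab' := h.ab.trans lb
  have t1 : Tr A X Y a b c' k := ⟨h.ab, h.bc.trans lc, h'.mem, h.nn, h.lt, by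
    have := hX _ _ (Dp.of_right h'.mem lc)
    have := h.one
    rw [cX c' h'.mem b c c' h.bc lc (Or.inr (h.bc.trans lc)) (Or.inr lc) Cm.rfl]
    omega⟩
  have t2 : Tr A X Y a b' c' k := ⟨ab', h'.bc, h'.mem, h.nn, by
    have := h'.lt
    rw [iY.coc c' h'.mem a a' b' la h'.ab (Or.inr (ab'.trans h'.bc))
      (Or.inr (h'.ab.trans h'.bc)) (Or.inr h'.bc)]
    omega, h'.one⟩
  have four : ∀ {w x y z : P} (h1 : w ≤ x) (h2 : x ≤ y) (h3 : y ≤ z),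
      ∃ d : Ch P, w ∈ d.1 ∧ x ∈ d.1 ∧ y ∈ d.1 ∧ z ∈ d.1 ∧ d.bot = w := fun {w x y z} h1 h2 h3 => by
    have j : ∀ t ∈ (c3 x y z h2 h3).1, w ≤ t := fun t ht =>
      h1.trans (bot_c3 h2 h3 ▸ Ch.bot_le ht)
    refine ⟨(c3 x y z h2 h3).ins w fun t ht => Or.inl (j t ht), by simp, by simp, by simp, by simp,
      Ch.bot_eq (by simp) fun t ht => ?_⟩
    rcases mem_insert.1 ht with rfl | ht
    exacts [le_rfl, j t ht]
  obtain ⟨d1, a1, a2, a3, a4, -⟩ := four h.ab h.bc lc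
  obtain ⟨q1, rfl, o1⟩ := h.exists_on hY a1 a2 a3
  obtain ⟨d2, b1, b2, b3, b4, -⟩ := four h.ab lb h'.bc
  obtain ⟨q2, rfl, o2⟩ := t1.exists_on hY b1 b2 b4
  obtain ⟨d3, c1, c2, c3, c4, c5⟩ := four la h'.ab h'.bc
  obtain ⟨q3, rfl, o3⟩ := t2.exists_on hY c1 c3 c4
  refine (h.rch hX cX hY hp o1).trans <| (t1.rch hX cX hY ⟨a1, a2, a4, o1.2.2.2⟩ o2).trans <|
    (t2.rch hX cX hY ⟨b1, b3, b4, o2.2.2.2⟩ o3).trans (h'.rch hX cX hY ⟨c2, c3, c4, ?_⟩ hq)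
  rw [o3.2.2.2, c5, e, dom_zero (z := Y) q3.2.1 c1, add_zero]

end tri

section fib

variable {P : Type} [PartialOrder P]

/-- the triples over a chain `c`; `W` is the side of `Y`, `V` the side of `X` -/
def Sg (A : Set P) (g : Ch (Ch P) → P) (c : Ch P) (W V : Set P) :
    Set (Ch (Ch P) × Ch (Ch P) × Ch (Ch P)) :=
  {τ | τ.1 ≤ τ.2.1 ∧ τ.2.1 ≤ τ.2.2 ∧ τ.2.2.top ≤ c ∧ tt τ.2.2 ∈ A ∧ be A τ.1 ∉ W ∧ be A τ.2.1 ∈ W ∧
    g τ.2.1 ∈ V ∧ g τ.2.2 ∉ V}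

/-- the fibres are connected -/
def FibC (A : Set P) (g : Ch (Ch P) → P) : Prop :=
  ∀ (c : Ch P) (W V : Set P), IsUpperSet W → IsLowerSet V → c.top ∈ A → c.bot ∉ W → c.top ∉ V →
    (∃ x ∈ c.1, x ∈ W ∧ x ∈ V) → (Sg A g c W V).Nonempty ∧ Conn (Sg A g c W V)

variable [Fintype P] {A : Set P} {X Y : P → P → ℤ}

theorem mu_le (hA : IsUpperSet A) (hX : Mono A X) (cX : Coc A X) (jx : ∀ x y, Dp A x y → X x y ≤ 1)
    (hY : Mono A Y) (cY : Coc A Y) {g : Ch (Ch P) → P} (hg : Monotone g) (gm : ∀ C, g C ∈ C.top.1)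
    (gb : ∀ C, be A C ≤ g C) (hF : FibC A g) (h' : Coc (tt ⁻¹' A) (pb (be A) Y)) :
    mu (tt ⁻¹' A) (pb g X) (pb (be A) Y) h' ≤ mu A X Y cY := by
  have : IsCoc A Y := ⟨cY⟩
  have : IsCoc (tt ⁻¹' A) (pb (be A) Y) := ⟨h'⟩
  have hA' : IsUpperSet (tt ⁻¹' A : Set (Ch (Ch P))) := hA.preimage (Ch.top_mono.comp Ch.top_mono)
  have dg : ∀ {C D}, Dp (tt ⁻¹' A) C D → Dp A (g C) (g D) := fun h =>
    (dom_tt h).dp (Ch.top_mono h.le (gm _)) (gm _) (hg h.le)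
  have hX' : Mono (tt ⁻¹' A) (pb g X) := fun _ _ h => hX _ _ (dg h)
  have hY' : Mono (tt ⁻¹' A) (pb (be A) Y) := fun _ _ h => hY _ _ (dp_be hA h)
  have cX' : Coc (tt ⁻¹' A) (pb g X) := fun a ha x y w h1 h2 _ c2 c3 =>
    cX.add' (dom_tt ⟨h2, a, ha, c2, c3⟩) (Ch.top_mono (h1.trans h2) (gm _)) (Ch.top_mono h2 (gm _))
      (gm _) (hg h1) (hg h2)
  let T : Lv A Y → Set (Ch (Ch P) × Ch (Ch P) × Ch (Ch P)) := fun e =>
    {τ | Tr (tt ⁻¹' A) (pb g X) (pb (be A) Y) τ.1 τ.2.1 τ.2.2 (e.1.2 - Y e.1.1.bot (be A τ.1)) ∧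
      τ.2.2.top ≤ e.1.1}
  have yy : ∀ (e : Lv A Y) {C D : Ch (Ch P)}, C ≤ D → D.top ≤ e.1.1 →
      Y e.1.1.bot (be A D) = Y e.1.1.bot (be A C) + Y (be A C) (be A D) := fun e C D h1 h2 =>
    have m := h2 (Ch.top_mono h1 (be_mem A C))
    cY.add' e.2.1 e.1.1.bot_mem m (h2 (be_mem A D)) (Ch.bot_le m) (be_mono hA h1)
  have key : ∀ e ∈ II A X Y, (T e).Nonempty ∧ Conn (T e) := fun e he => by
    obtain ⟨x, t, o⟩ := exists_tr hA he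
    have w : ∀ y ∈ e.1.1.1, y ∈ {y | ∃ w ∈ e.1.1.1, w ≤ y ∧ e.1.2 < Y e.1.1.bot w} ↔
        e.1.2 < Y e.1.1.bot y := fun y hy => ⟨fun ⟨w, w1, w2, w3⟩ => by
      have := hY _ _ (e.2.1.dp w1 hy w2)
      rw [cY.add' e.2.1 e.1.1.bot_mem w1 hy (Ch.bot_le w1) w2]
      omega, fun k => ⟨y, hy, le_rfl, k⟩⟩
    have v : ∀ y ∈ e.1.1.1, y ∈ {y | ∃ w ∈ e.1.1.1, y ≤ w ∧ 1 ≤ X w e.1.1.top} ↔
        1 ≤ X y e.1.1.top := fun y hy => ⟨fun ⟨w, w1, w2, w3⟩ => by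
      have := hX _ _ (e.2.1.dp hy w1 w2)
      rw [cX.add' e.2.1 hy w1 e.1.1.top_mem w2 (Ch.le_top w1)]
      omega, fun k => ⟨y, hy, le_rfl, k⟩⟩
    have z0 : Y e.1.1.bot e.1.1.bot = 0 := dom_zero e.2.1 e.1.1.bot_mem
    have z1 : X e.1.1.top e.1.1.top = 0 := Kh11.dom_self cX e.2.1 e.1.1.top_mem
    have := hF e.1.1 {y | ∃ w ∈ e.1.1.1, w ≤ y ∧ e.1.2 < Y e.1.1.bot w}
      {y | ∃ w ∈ e.1.1.1, y ≤ w ∧ 1 ≤ X w e.1.1.top} (fun _ _ l ⟨w, w1, w2, w3⟩ => ⟨w, w1, w2.trans l, w3⟩)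
      (fun _ _ l ⟨w, w1, w2, w3⟩ => ⟨w, w1, l.trans w2, w3⟩) t.mem
      (by rw [w _ e.1.1.bot_mem, z0]; exact not_lt.2 t.nn) (by rw [v _ e.1.1.top_mem, z1]; simp)
      ⟨x, o.2.1, (w x o.2.1).2 t.lt, (v x o.2.1).2 t.one⟩
    suffices T e = _ from this ▸ ‹_ ∧ _›
    ext ⟨a, b, c⟩
    have main : a ≤ b → b ≤ c → c.top ≤ e.1.1 →
        ((0 ≤ e.1.2 - Y e.1.1.bot (be A a) ∧ e.1.2 - Y e.1.1.bot (be A a) < Y (be A a) (be A b) ∧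
          1 ≤ X (g b) (g c)) ↔ (be A a ∉ {y | ∃ w ∈ e.1.1.1, w ≤ y ∧ e.1.2 < Y e.1.1.bot w} ∧
          be A b ∈ {y | ∃ w ∈ e.1.1.1, w ≤ y ∧ e.1.2 < Y e.1.1.bot w} ∧
          g b ∈ {y | ∃ w ∈ e.1.1.1, y ≤ w ∧ 1 ≤ X w e.1.1.top} ∧
          g c ∉ {y | ∃ w ∈ e.1.1.1, y ≤ w ∧ 1 ≤ X w e.1.1.top})) := fun h1 h2 h3 => by
      have lb := (Ch.top_mono h2).trans h3
      have m1 := lb (gm b)
      have m2 := h3 (gm c)
      rw [w _ ((Ch.top_mono h1).trans lb (be_mem A a)), w _ (lb (be_mem A b)), v _ m1, v _ m2,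
        yy e h1 lb]
      have := cX.add' e.2.1 m1 m2 e.1.1.top_mem (hg h2) (Ch.le_top m2)
      have := jx _ _ (e.2.1.dp m1 e.1.1.top_mem (Ch.le_top m1))
      have := hX _ _ (e.2.1.dp m2 e.1.1.top_mem (Ch.le_top m2))
      omega
    exact ⟨fun ⟨h, l⟩ => ⟨h.ab, h.bc, l, h.mem, (main h.ab h.bc l).1 ⟨h.nn, h.lt, h.one⟩⟩,
      fun ⟨h1, h2, h3, h4, h5⟩ => let ⟨k1, k2, k3⟩ := (main h1 h2 h3).2 h5
        ⟨⟨h1, h2, h4, k1, k2, k3⟩, h3⟩⟩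
  refine ncmp_le (fun e => {p | ∃ τ ∈ T e, On p τ.1 τ.2.1 τ.2.2 (e.1.2 - Y e.1.1.bot (be A τ.1))})
    (fun e he => ?_) (fun e he p ⟨τ, h1, h2⟩ q ⟨σ, h3, h4⟩ => ?_) (fun e _ e' _ l p ⟨τ, h1, h2⟩ => ?_)
    fun p hp => ?_
  · obtain ⟨τ, h⟩ := (key e he).1
    obtain ⟨r, -, o, -⟩ := h.1.cell hY'
    exact ⟨r, τ, h, o⟩
  · refine ((key e he).2 τ h1 σ h3).ind (p := fun t => ∀ r, On r t.1 t.2.1 t.2.2
      (e.1.2 - Y e.1.1.bot (be A t.1)) → Rch _ p r) (fun r => h1.1.rch hX' cX' hY' h2)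
      (fun a ha b hb l => ?_) q h4
    have m := fun p q => ha.1.rch_le hX' cX' hY' hb.1 l.1 l.2.1 l.2.2 (p := p) (q := q) (by
      rw [yy e l.1 ((Ch.top_mono (hb.1.ab.trans hb.1.bc)).trans hb.2)]
      show _ = _ + Y _ _
      ring)
    obtain ⟨r1, -, o1, -⟩ := ha.1.cell hY'
    obtain ⟨r2, -, o2, -⟩ := hb.1.cell hY'
    exact ⟨fun j r o => (j r1 o1).trans (m _ _ o1 o), fun j r o => (j r2 o2).trans (m _ _ o o2).symm⟩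
  · obtain ⟨l1, l2⟩ := Lv.le_iff.1 l
    have m := h1.2 (Ch.top_mono (h1.1.ab.trans h1.1.bc) (be_mem A τ.1))
    have e1 : e'.1.2 - Y e'.1.1.bot (be A τ.1) = e.1.2 - Y e.1.1.bot (be A τ.1) := by
      rw [l2, cY.add' e'.2.1 e'.1.1.bot_mem (l1 e.1.1.bot_mem) (l1 m) (Ch.bot_anti l1) (Ch.bot_le m)]
      ring
    exact ⟨τ, ⟨e1 ▸ h1.1, h1.2.trans l1⟩, e1 ▸ h2⟩
  · obtain ⟨x, t, o⟩ := exists_tr hA' hp
    set c := p.1.1.top.top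
    have d : Dom A c := Mt.dom ⟨_, c.top_mem, t.mem⟩
    have m0 : be A p.1.1.bot ∈ c.1 := Ch.top_mono p.1.1.bot_le_top (be_mem A _)
    have m1 : be A x ∈ c.1 := Ch.top_mono t.bc (be_mem A _)
    have m2 : g x ∈ c.1 := Ch.top_mono t.bc (gm _)
    have m3 : g p.1.1.top ∈ c.1 := gm _
    have t' : Tr A X Y (be A p.1.1.bot) (g x) c.top p.1.2 := ⟨(be_mono hA t.ab).trans (gb x),
      Ch.le_top m2, t.mem, t.nn, by
        have := hY _ _ (d.dp m1 m2 (gb x))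
        have : p.1.2 < Y _ _ := t.lt
        rw [cY.add' d m0 m1 m2 (be_mono hA t.ab) (gb x)]
        omega, by
        have := hX _ _ (d.dp m3 c.top_mem (Ch.le_top m3))
        have : 1 ≤ X _ _ := t.one
        rw [cX.add' d m2 m3 c.top_mem (hg t.bc) (Ch.le_top m3)]
        omega⟩
    obtain ⟨e, e1, e2⟩ := t'.exists_on hY m0 m2 c.top_mem
    have e3 : e.1.2 - Y e.1.1.bot (be A p.1.1.bot) = p.1.2 := by rw [e2.2.2.2]; ring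
    exact ⟨e, t'.mem_II hX cX e2, (p.1.1.bot, x, p.1.1.top), ⟨e3 ▸ t, e1.ge⟩, e3 ▸ o⟩

end fib

end Crest.Agent.X212.Sup43
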