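import Crest.Agent.X212.Sup43.Bound
import Crest.Agent.X212.Hlf24.Bdy
import Crest.Agent.X212.Mcg32.Prep

/-!
# X212 / Sup43 (helper43): CUT and STEP, unconditional
-/

namespace Crest.Agent.X212.Sup43

theorem cutStmt : Cut21.CutStmt := Cut21.cutStmt_of Hlf24.bdyStmt Hlf24.half2Stmt Hlf24.thkStmt

theorem stepStmt : Cut21.StepStmt :=
  Cut21.stepStmt_of Hlf24.bdyStmt Hlf24.half2Stmt Hlf24.thkStmt Mcg32.prep boundStmt

end Crest.Agent.X212.Sup43
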